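import Vale.Agent.P086.Defs

/-!
P086: the flow of the field. It is obtained by Picard's theorem after a radial cut-off which is
never active, keeps the law of the starting state and can be reversed inside the generated algebra.
-/

open Set
open scoped Topology

namespace VP086

namespace FlowProof

variable {A : Type} [CStarAlgebra A] {H : Type} [NormedAddCommGroup H] [InnerProductSpace ℂ H]
variable {S : System A H}

/-! ### The trace -/

theorem tau_norm_le (S : System A H) (x : A) : ‖S.τ x‖ ≤ ‖x‖ := by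
  have h := S.left_le x 1
  rw [mul_one, S.norm_one, mul_one] at h
  have h' : ‖inner ℂ (S.ι 1) (S.ι x)‖ ≤ ‖S.ι 1‖ * ‖S.ι x‖ := norm_inner_le_norm _ _
  rw [S.norm_one, one_mul] at h'
  exact h'.trans h

/-- The trace as a continuous linear map. -/
noncomputable def tauC (S : System A H) : A →L[ℂ] ℂ :=
  ((innerSL ℂ (S.ι 1)).toLinearMap ∘ₗ S.ι).mkContinuous 1 fun x => by
    rw [one_mul]; exact tau_norm_le S x

@[simp] theorem tauC_apply (S : System A H) (x : A) : tauC S x = S.τ x := rfl

theorem nontriv (S : System A H) : Nontrivial A := by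
  refine ⟨1, 0, fun h => ?_⟩
  have h1 := S.norm_one
  rw [h, map_zero, norm_zero] at h1
  exact zero_ne_one h1

/-! ### Weights and bounds -/

/-- The weight of a combination. -/
noncomputable def wt (ρ : ℝ) (l : Comb S) : ℝ := (l.map fun p => ‖p.1‖ * ρ ^ p.2.length).sum

@[simp] theorem wt_nil (ρ : ℝ) : wt ρ ([] : Comb S) = 0 := rfl

@[simp] theorem wt_cons (ρ : ℝ) (p : ℂ × List (Atom S)) (l : Comb S) :
    wt ρ (p :: l) = ‖p.1‖ * ρ ^ p.2.length + wt ρ l := by simp [wt]

theorem wt_append (ρ : ℝ) (l l' : Comb S) : wt ρ (l ++ l') = wt ρ l + wt ρ l' := by simp [wt]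

theorem wt_nonneg {ρ : ℝ} (h : 0 ≤ ρ) (l : Comb S) : 0 ≤ wt ρ l := by
  induction l with
  | nil => simp
  | cons p l ih => rw [wt_cons]; positivity

theorem wt_map_right (ρ : ℝ) (l : Comb S) (W : List (Atom S)) :
    wt ρ (l.map fun p => (p.1, p.2 ++ W)) = wt ρ l * ρ ^ W.length := by
  induction l with
  | nil => simp
  | cons p l ih =>
    rw [List.map_cons, wt_cons, ih, wt_cons]
    simp only [List.length_append, pow_add]
    ring

theorem wt_map_cons (ρ : ℝ) (l : Comb S) (a : Atom S) :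
    wt ρ (l.map fun p => (p.1, a :: p.2)) = ρ * wt ρ l := by
  induction l with
  | nil => simp
  | cons p l ih =>
    rw [List.map_cons, wt_cons, ih, wt_cons]
    simp only [List.length_cons, pow_succ]
    ring

theorem wt_adjC (ρ : ℝ) (l : Comb S) : wt ρ (adjC l) = wt ρ l := by
  induction l with
  | nil => simp [adjC]
  | cons p l ih =>
    rw [adjC, List.map_cons, wt_cons, ← adjC, ih, wt_cons]
    simp [adjW]

theorem wt_neg (ρ : ℝ) (l : Comb S) : wt ρ (l.map fun p => (-p.1, p.2)) = wt ρ l := by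
  induction l with
  | nil => simp
  | cons p l ih => rw [List.map_cons, wt_cons, ih, wt_cons, norm_neg]

/-- The total length. -/
def tlen (l : Comb S) : ℕ := (l.map fun p => p.2.length).sum

theorem wt_le {ρ : ℝ} (h : 1 ≤ ρ) (l : Comb S) : ∀ n, tlen l ≤ n → wt ρ l ≤ wt 1 l * ρ ^ n := by
  induction l with
  | nil => simp
  | cons p l ih =>
    intro n hn
    simp only [tlen, List.map_cons, List.sum_cons] at hn
    rw [wt_cons, wt_cons, one_pow, mul_one, add_mul]
    refine add_le_add (mul_le_mul_of_nonneg_left (pow_le_pow_right₀ h (by omega)) (norm_nonneg _))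
      (ih n ?_)
    simp only [tlen]; omega

/-- The weight of the field. -/
noncomputable def fwt (pr : List (Const S × Const S)) (L : ℕ) : ℝ :=
  wt 1 (xC pr L) + wt 1 (gC pr L)

/-- The length of the field. -/
noncomputable def flen (pr : List (Const S × Const S)) (L : ℕ) : ℕ :=
  tlen (xC pr L) + tlen (gC pr L) + 1

theorem fwt_nonneg (pr : List (Const S × Const S)) (L : ℕ) : 0 ≤ fwt pr L :=
  add_nonneg (wt_nonneg zero_le_one _) (wt_nonneg zero_le_one _)

theorem wt_datom_le {ρ : ℝ} (h : 1 ≤ ρ) (pr : List (Const S × Const S)) (L : ℕ) (a : Atom S) :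
    wt ρ (datom pr L a) ≤ fwt pr L * ρ ^ flen pr L := by
  have h0 : 0 ≤ ρ := zero_le_one.trans h
  have hx : wt ρ ((xC pr L).map fun p => (p.1, p.2 ++ [Atom.u])) ≤ fwt pr L * ρ ^ flen pr L := by
    rw [wt_map_right, List.length_singleton, pow_one]
    calc wt ρ (xC pr L) * ρ ≤ wt 1 (xC pr L) * ρ ^ (tlen (xC pr L) + tlen (gC pr L)) * ρ :=
          mul_le_mul_of_nonneg_right (wt_le h _ _ (by omega)) h0
      _ ≤ fwt pr L * ρ ^ (tlen (xC pr L) + tlen (gC pr L)) * ρ := by
          gcongr
          exact le_add_of_nonneg_right (wt_nonneg zero_le_one _)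
      _ = fwt pr L * ρ ^ flen pr L := by rw [flen, pow_succ, mul_assoc]
  have hg : wt ρ ((gC pr L).map fun p => (-p.1, p.2)) ≤ fwt pr L * ρ ^ flen pr L := by
    rw [wt_neg]
    refine (wt_le h _ (flen pr L) (by simp only [flen]; omega)).trans ?_
    gcongr
    exact le_add_of_nonneg_left (wt_nonneg zero_le_one _)
  have hz : (0 : ℝ) ≤ fwt pr L * ρ ^ flen pr L := mul_nonneg (fwt_nonneg pr L) (pow_nonneg h0 _)
  cases a with
  | u => exact hx
  | ui => simp only [datom]; rw [wt_adjC]; exact hx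
  | q => exact hg
  | d c => simpa [datom] using hz
  | v => simpa [datom] using hz
  | vi => simpa [datom] using hz

theorem wt_dev_le {ρ : ℝ} (h : 1 ≤ ρ) (pr : List (Const S × Const S)) (L : ℕ) :
    ∀ W : List (Atom S),
      wt ρ (dev pr L W) ≤ W.length * fwt pr L * ρ ^ (W.length + flen pr L)
  | [] => by simp [dev]
  | a :: W => by
    have h0 : 0 ≤ ρ := zero_le_one.trans h
    have hF := fwt_nonneg pr L
    rw [dev, wt_append, wt_map_right, wt_map_cons]
    have h1 : wt ρ (datom pr L a) * ρ ^ W.length ≤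
        fwt pr L * ρ ^ ((a :: W).length + flen pr L) := by
      calc wt ρ (datom pr L a) * ρ ^ W.length
          ≤ fwt pr L * ρ ^ flen pr L * ρ ^ W.length :=
            mul_le_mul_of_nonneg_right (wt_datom_le h pr L a) (pow_nonneg h0 _)
        _ = fwt pr L * ρ ^ (W.length + flen pr L) := by rw [pow_add]; ring
        _ ≤ fwt pr L * ρ ^ ((a :: W).length + flen pr L) := by
            refine mul_le_mul_of_nonneg_left (pow_le_pow_right₀ h ?_) hF
            simp
    have h2 : ρ * wt ρ (dev pr L W) ≤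
        W.length * fwt pr L * ρ ^ ((a :: W).length + flen pr L) := by
      calc ρ * wt ρ (dev pr L W) ≤ ρ * (W.length * fwt pr L * ρ ^ (W.length + flen pr L)) :=
            mul_le_mul_of_nonneg_left (wt_dev_le h pr L W) h0
        _ = W.length * fwt pr L * ρ ^ ((a :: W).length + flen pr L) := by
            rw [List.length_cons, Nat.add_right_comm, pow_succ]; ring
    refine (add_le_add h1 h2).trans (le_of_eq ?_)
    rw [List.length_cons]
    push_cast
    ring

theorem norm_val_le [Nontrivial A] {M : ℝ} (hM : 1 ≤ M) {s : A × A} (hs : ‖s‖ ≤ M) (a : Atom S) :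
    ‖a.val s‖ ≤ M := by
  cases a with
  | d c => exact c.2.2.trans hM
  | u => exact (norm_fst_le s).trans hs
  | ui => simpa [Atom.val] using (norm_fst_le s).trans hs
  | v => simpa [Atom.val, CStarRing.norm_coe_unitary] using hM
  | vi => simpa [Atom.val, CStarRing.norm_coe_unitary] using hM
  | q => exact (norm_snd_le s).trans hs

theorem norm_ev_le [Nontrivial A] {M : ℝ} (hM : 1 ≤ M) {s : A × A} (hs : ‖s‖ ≤ M) :
    ∀ W : List (Atom S), ‖ev s W‖ ≤ M ^ W.length
  | [] => by simp
  | a :: W => by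
    rw [ev_cons, List.length_cons, pow_succ']
    exact (norm_mul_le _ _).trans (mul_le_mul (norm_val_le hM hs a) (norm_ev_le hM hs W)
      (norm_nonneg _) (zero_le_one.trans hM))

theorem norm_tot_le [Nontrivial A] {M : ℝ} (hM : 1 ≤ M) {s : A × A} (hs : ‖s‖ ≤ M) :
    ∀ l : Comb S, ‖tot s l‖ ≤ wt M l
  | [] => by simp
  | p :: l => by
    rw [tot_cons, wt_cons]
    refine (norm_add_le _ _).trans (add_le_add ?_ (norm_tot_le hM hs l))
    rw [norm_smul]
    exact mul_le_mul_of_nonneg_left (norm_ev_le hM hs p.2) (norm_nonneg _)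

theorem norm_val_sub_le (s s' : A × A) (a : Atom S) : ‖a.val s - a.val s'‖ ≤ ‖s - s'‖ := by
  cases a with
  | d c => simp [Atom.val]
  | u => exact norm_fst_le (s - s')
  | ui =>
    simp only [Atom.val]
    rw [← star_sub, norm_star]
    exact norm_fst_le (s - s')
  | v => simp [Atom.val]
  | vi => simp [Atom.val]
  | q => exact norm_snd_le (s - s')

theorem norm_ev_sub_le [Nontrivial A] {M : ℝ} (hM : 1 ≤ M) {s s' : A × A} (hs : ‖s‖ ≤ M)
    (hs' : ‖s'‖ ≤ M) : ∀ W : List (Atom S),
      ‖ev s W - ev s' W‖ ≤ W.length * M ^ W.length * ‖s - s'‖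
  | [] => by simp
  | a :: W => by
    have h0 : 0 ≤ M := zero_le_one.trans hM
    have e : ev s (a :: W) - ev s' (a :: W) =
        (a.val s - a.val s') * ev s W + a.val s' * (ev s W - ev s' W) := by
      simp only [ev_cons]; noncomm_ring
    rw [e]
    refine (norm_add_le _ _).trans ?_
    have h1 : ‖(a.val s - a.val s') * ev s W‖ ≤ M ^ (W.length + 1) * ‖s - s'‖ := by
      refine (norm_mul_le _ _).trans ?_
      rw [mul_comm (M ^ (W.length + 1))]
      exact mul_le_mul (norm_val_sub_le s s' a)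
        ((norm_ev_le hM hs W).trans (pow_le_pow_right₀ hM (Nat.le_succ _))) (norm_nonneg _)
        (norm_nonneg _)
    have h2 : ‖a.val s' * (ev s W - ev s' W)‖ ≤
        W.length * M ^ (W.length + 1) * ‖s - s'‖ := by
      refine (norm_mul_le _ _).trans
        ((mul_le_mul (norm_val_le hM hs' a) (norm_ev_sub_le hM hs hs' W) (norm_nonneg _) h0).trans
          (le_of_eq ?_))
      rw [pow_succ]; ring
    refine (add_le_add h1 h2).trans (le_of_eq ?_)
    rw [List.length_cons]; push_cast; ring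

/-- A Lipschitz constant of a combination. -/
noncomputable def lwt (M : ℝ) (l : Comb S) : ℝ :=
  (l.map fun p => ‖p.1‖ * (p.2.length * M ^ p.2.length)).sum

theorem lwt_nonneg {M : ℝ} (hM : 0 ≤ M) (l : Comb S) : 0 ≤ lwt M l := by
  induction l with
  | nil => simp [lwt]
  | cons p l ih =>
    simp only [lwt, List.map_cons, List.sum_cons]
    exact add_nonneg (by positivity) ih

theorem norm_tot_sub_le [Nontrivial A] {M : ℝ} (hM : 1 ≤ M) {s s' : A × A} (hs : ‖s‖ ≤ M)
    (hs' : ‖s'‖ ≤ M) : ∀ l : Comb S, ‖tot s l - tot s' l‖ ≤ lwt M l * ‖s - s'‖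
  | [] => by simp [lwt]
  | p :: l => by
    rw [tot_cons, tot_cons, add_sub_add_comm, ← smul_sub]
    refine (norm_add_le _ _).trans ?_
    rw [norm_smul, show lwt M (p :: l) = ‖p.1‖ * (p.2.length * M ^ p.2.length) + lwt M l by
      simp [lwt], add_mul, mul_assoc ‖p.1‖]
    exact add_le_add
      (mul_le_mul_of_nonneg_left (norm_ev_sub_le hM hs hs' p.2) (norm_nonneg _))
      (norm_tot_sub_le hM hs hs' l)

/-! ### The radial cut-off -/

/-- The scale of the cut-off. -/
noncomputable def scl (M : ℝ) (x : A) : ℝ := M / max M ‖x‖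

/-- The radial cut-off. -/
noncomputable def clip (M : ℝ) (x : A) : A := ((scl M x : ℝ) : ℂ) • x

/-- The cut-off of a state. -/
noncomputable def clip2 (M : ℝ) (s : A × A) : A × A := (clip M s.1, clip M s.2)

theorem scl_nonneg {M : ℝ} (hM : 0 < M) (x : A) : 0 ≤ scl M x :=
  div_nonneg hM.le (hM.le.trans (le_max_left _ _))

theorem scl_le_one {M : ℝ} (hM : 0 < M) (x : A) : scl M x ≤ 1 :=
  (div_le_one (hM.trans_le (le_max_left _ _))).2 (le_max_left _ _)

theorem clip_of_le {M : ℝ} (hM : 0 < M) {x : A} (hx : ‖x‖ ≤ M) : clip M x = x := by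
  rw [clip, scl, max_eq_left hx, div_self hM.ne']; simp

theorem norm_clip {M : ℝ} (hM : 0 < M) (x : A) : ‖clip M x‖ = scl M x * ‖x‖ := by
  rw [clip, norm_smul, Complex.norm_real, Real.norm_of_nonneg (scl_nonneg hM x)]

theorem norm_clip_le {M : ℝ} (hM : 0 < M) (x : A) : ‖clip M x‖ ≤ M := by
  rw [norm_clip hM, scl, div_mul_eq_mul_div, div_le_iff₀ (hM.trans_le (le_max_left _ _))]
  exact mul_le_mul_of_nonneg_left (le_max_right _ _) hM.le

theorem star_clip (M : ℝ) {x : A} (hx : star x = x) : star (clip M x) = clip M x := by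
  rw [clip, star_smul, hx]; simp

theorem clip_lip {M : ℝ} (hM : 0 < M) (x y : A) : ‖clip M x - clip M y‖ ≤ 2 * ‖x - y‖ := by
  have hx : 0 < max M ‖x‖ := hM.trans_le (le_max_left _ _)
  have hy : 0 < max M ‖y‖ := hM.trans_le (le_max_left _ _)
  have e : clip M x - clip M y =
      (((scl M x : ℝ) : ℂ) - ((scl M y : ℝ) : ℂ)) • x + ((scl M y : ℝ) : ℂ) • (x - y) := by
    simp only [clip, sub_smul, smul_sub]; abel
  have h2 : ‖((scl M y : ℝ) : ℂ) • (x - y)‖ ≤ ‖x - y‖ := by
    rw [norm_smul, Complex.norm_real, Real.norm_of_nonneg (scl_nonneg hM y)]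
    exact mul_le_of_le_one_left (norm_nonneg _) (scl_le_one hM y)
  have h1 : ‖(((scl M x : ℝ) : ℂ) - ((scl M y : ℝ) : ℂ)) • x‖ ≤ ‖x - y‖ := by
    rw [norm_smul, ← Complex.ofReal_sub, Complex.norm_real, Real.norm_eq_abs,
      show scl M x - scl M y = M * (max M ‖y‖ - max M ‖x‖) / (max M ‖x‖ * max M ‖y‖) by
        simp only [scl]; field_simp,
      abs_div, abs_mul, abs_of_pos hM, abs_of_pos (mul_pos hx hy), div_mul_eq_mul_div,
      div_le_iff₀ (mul_pos hx hy)]
    have hd : |max M ‖y‖ - max M ‖x‖| ≤ ‖x - y‖ := by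
      refine (abs_max_sub_max_le_max M ‖y‖ M ‖x‖).trans (max_le ?_ ?_)
      · simp
      · rw [norm_sub_rev x y]; exact abs_norm_sub_norm_le y x
    calc M * |max M ‖y‖ - max M ‖x‖| * ‖x‖
        = |max M ‖y‖ - max M ‖x‖| * (‖x‖ * M) := by ring
      _ ≤ ‖x - y‖ * (max M ‖x‖ * max M ‖y‖) := by
          refine mul_le_mul hd ?_ (by positivity) (norm_nonneg _)
          exact mul_le_mul (le_max_right _ _) (le_max_left _ _) hM.le hx.le
  rw [e, two_mul]
  exact (norm_add_le _ _).trans (add_le_add h1 h2)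

theorem norm_clip2_le {M : ℝ} (hM : 0 < M) (s : A × A) : ‖clip2 M s‖ ≤ M :=
  max_le (norm_clip_le hM _) (norm_clip_le hM _)

theorem clip2_lip {M : ℝ} (hM : 0 < M) (s s' : A × A) :
    ‖clip2 M s - clip2 M s'‖ ≤ 2 * ‖s - s'‖ :=
  max_le ((clip_lip hM _ _).trans (mul_le_mul_of_nonneg_left (norm_fst_le (s - s')) zero_le_two))
    ((clip_lip hM _ _).trans (mul_le_mul_of_nonneg_left (norm_snd_le (s - s')) zero_le_two))

/-- The cut-off field. -/
noncomputable def cfield (pr : List (Const S × Const S)) (L : ℕ) (M : ℝ) (s : A × A) : A × A :=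
  field pr L (clip2 M s)

/-- A Lipschitz constant of the cut-off field. -/
noncomputable def clc (pr : List (Const S × Const S)) (L : ℕ) (M : ℝ) : ℝ :=
  2 * (lwt M (xC pr L) * M + wt M (xC pr L) + lwt M (gC pr L))

theorem clc_nonneg (pr : List (Const S × Const S)) (L : ℕ) {M : ℝ} (hM : 0 ≤ M) :
    0 ≤ clc pr L M := by
  have := lwt_nonneg hM (xC pr L)
  have := lwt_nonneg hM (gC pr L)
  have := wt_nonneg hM (xC pr L)
  rw [clc]; positivity

theorem norm_cfield_le [Nontrivial A] (pr : List (Const S × Const S)) (L : ℕ) {M : ℝ}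
    (hM : 1 ≤ M) (s : A × A) :
    ‖cfield pr L M s‖ ≤ wt M (xC pr L) * M + wt M (gC pr L) := by
  have hM0 : 0 < M := zero_lt_one.trans_le hM
  have hx := wt_nonneg hM0.le (xC pr L)
  have hg := wt_nonneg hM0.le (gC pr L)
  refine max_le ?_ ?_
  · refine ((norm_mul_le _ _).trans (mul_le_mul (norm_tot_le hM (norm_clip2_le hM0 s) _)
      (norm_clip_le hM0 _) (norm_nonneg _) hx)).trans (le_add_of_nonneg_right hg)
  · show ‖-tot (clip2 M s) (gC pr L)‖ ≤ _
    rw [norm_neg]
    exact (norm_tot_le hM (norm_clip2_le hM0 s) _).trans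
      (le_add_of_nonneg_left (mul_nonneg hx hM0.le))

theorem cfield_lip [Nontrivial A] (pr : List (Const S × Const S)) (L : ℕ) {M : ℝ}
    (hM : 1 ≤ M) (s s' : A × A) :
    ‖cfield pr L M s - cfield pr L M s'‖ ≤ clc pr L M * ‖s - s'‖ := by
  have hM0 : 0 < M := zero_lt_one.trans_le hM
  set r := clip2 M s with hr
  set r' := clip2 M s' with hr'
  have hn : ‖r‖ ≤ M := norm_clip2_le hM0 s
  have hn' : ‖r'‖ ≤ M := norm_clip2_le hM0 s'
  have hd : ‖r - r'‖ ≤ 2 * ‖s - s'‖ := clip2_lip hM0 s s'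
  have hlx := lwt_nonneg hM0.le (xC pr L)
  have hlg := lwt_nonneg hM0.le (gC pr L)
  have hwx := wt_nonneg hM0.le (xC pr L)
  have key : ‖field pr L r - field pr L r'‖ ≤
      (lwt M (xC pr L) * M + wt M (xC pr L) + lwt M (gC pr L)) * ‖r - r'‖ := by
    refine max_le ?_ ?_
    · show ‖tot r (xC pr L) * r.1 - tot r' (xC pr L) * r'.1‖ ≤ _
      rw [show tot r (xC pr L) * r.1 - tot r' (xC pr L) * r'.1 =
        (tot r (xC pr L) - tot r' (xC pr L)) * r.1 + tot r' (xC pr L) * (r.1 - r'.1) by
          noncomm_ring]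
      have a1 : ‖(tot r (xC pr L) - tot r' (xC pr L)) * r.1‖ ≤
          lwt M (xC pr L) * ‖r - r'‖ * M :=
        (norm_mul_le _ _).trans (mul_le_mul (norm_tot_sub_le hM hn hn' _)
          ((norm_fst_le r).trans hn) (norm_nonneg _) (mul_nonneg hlx (norm_nonneg _)))
      have a2 : ‖tot r' (xC pr L) * (r.1 - r'.1)‖ ≤ wt M (xC pr L) * ‖r - r'‖ :=
        (norm_mul_le _ _).trans (mul_le_mul (norm_tot_le hM hn' _) (norm_fst_le (r - r'))
          (norm_nonneg _) hwx)
      refine (norm_add_le _ _).trans ((add_le_add a1 a2).trans ?_)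
      nlinarith [norm_nonneg (r - r')]
    · show ‖-tot r (gC pr L) - -tot r' (gC pr L)‖ ≤ _
      rw [neg_sub_neg, norm_sub_rev]
      refine (norm_tot_sub_le hM hn hn' _).trans (mul_le_mul_of_nonneg_right ?_ (norm_nonneg _))
      nlinarith [mul_nonneg hlx hM0.le]
  refine key.trans ?_
  rw [clc, mul_assoc 2, mul_left_comm]
  exact mul_le_mul_of_nonneg_left hd (by positivity)

/-! ### Words of the compression of `g` -/

theorem mem_of_pow {α : Type} (a : α) : ∀ (n : ℕ), ∀ l ∈ (FreeMonoid.of a ^ n).toList, l = a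
  | 0 => by simp
  | n + 1 => by
    intro l hl
    rw [pow_succ', FreeMonoid.toList_mul, List.mem_append] at hl
    rcases hl with h | h
    · simpa using h
    · exact mem_of_pow a n l h

theorem mem_blk {α : Type} (a b : α) : ∀ (k i : ℕ),
    ∀ l ∈ (blk (FreeMonoid.of a) (FreeMonoid.of b) i k).toList, l = a ∨ l = b
  | 0, i => by simp [blk]
  | k + 1, i => by
    intro l hl
    rw [blk, FreeMonoid.toList_mul, FreeMonoid.toList_mul, List.mem_append, List.mem_append] at hl
    rcases hl with (h | h) | h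
    · exact Or.inr (mem_of_pow b _ l h)
    · exact Or.inl (by simpa using h)
    · exact mem_blk a b k (i + 1) l h

theorem ev_indep (u x y : A) : ∀ W : List (Atom S), (∀ l ∈ W, l ≠ Atom.q) →
    ev (u, x) W = ev (u, y) W
  | [], _ => by simp
  | a :: W, h => by
    rw [ev_cons, ev_cons, ev_indep u x y W fun l hl => h l (List.mem_cons_of_mem _ hl)]
    congr 1
    have := h a List.mem_cons_self
    cases a <;> first | rfl | exact absurd rfl this

theorem ev_aWrd_indep (u x y : A) (L : ℕ) :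
    ev (u, x) (aWrd S L) = ev (u, y) (aWrd S L) ∧
      ev (u, x) (adjW (aWrd S L)) = ev (u, y) (adjW (aWrd S L)) := by
  have hm : ∀ l ∈ aWrd S L, l = Atom.u ∨ l = Atom.v := mem_blk _ _ L 0
  refine ⟨ev_indep u x y _ fun l hl => ?_, ev_indep u x y _ fun l hl => ?_⟩
  · rcases hm l hl with h | h <;> simp [h]
  · simp only [adjW, List.mem_reverse, List.mem_map] at hl
    obtain ⟨m, hm', rfl⟩ := hl
    rcases hm m hm' with h | h <;> simp [h, Atom.adj]

theorem tot_gC_eq (pr : List (Const S × Const S)) (L : ℕ) (s : A × A) :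
    tot s (gC pr L) = lam • cmp pr (ev (s.1, 0) (aWrd S L) + star (ev (s.1, 0) (aWrd S L))) := by
  obtain ⟨h1, h2⟩ := ev_aWrd_indep (S := S) s.1 s.2 0 L
  rw [Prod.mk.eta] at h1 h2
  induction pr with
  | nil => simp [gC, cmp]
  | cons p pr ih =>
    rw [gC, List.flatMap_cons, tot_append, ← gC, ih]
    simp only [tot_cons, tot_nil, add_zero, ev_append, ev_cons, ev_nil, Atom.val, cmp,
      List.map_cons, List.sum_cons, smul_add, mul_one, h1, h2]
    rw [ev_adjW _ (star_zero A), mul_add, add_mul, smul_add]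

theorem star_lam : star lam = lam := Complex.conj_ofReal _

theorem star_cmp_pairs {K : ℕ} (P : Arcs S K) (a b : Fin K) (x : A) (hx : star x = x) :
    star (cmp (P.pairs a b) x) = cmp (P.pairs a b) x := by
  unfold Arcs.pairs
  split <;> simp [cmp, P.star_p, hx, mul_assoc, add_comm]

theorem star_tot_gC {K : ℕ} (P : Arcs S K) (a b : Fin K) (L : ℕ) (s : A × A) :
    star (tot s (gC (P.pairs a b) L)) = tot s (gC (P.pairs a b) L) := by
  rw [tot_gC_eq, star_smul, star_lam,
    star_cmp_pairs P a b _ (by rw [star_add, star_star, add_comm])]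

/-! ### The derivative of a word -/

theorem tot_neg (s : A × A) (l : Comb S) : tot s (l.map fun p => (-p.1, p.2)) = -tot s l := by
  induction l with
  | nil => simp
  | cons p l ih => rw [List.map_cons, tot_cons, ih, tot_cons, neg_smul, neg_add]

theorem hasDerivWithinAt_ev (pr : List (Const S × Const S)) (L : ℕ) {x : ℝ → A × A} {t : ℝ}
    {U : Set ℝ} (hq : star (x t).2 = (x t).2)
    (h : HasDerivWithinAt x (field pr L (x t)) U t) : ∀ W : List (Atom S),
      HasDerivWithinAt (fun r => ev (x r) W) (tot (x t) (dev pr L W)) U t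
  | [] => by simpa [dev] using hasDerivWithinAt_const t U (1 : A)
  | a :: W => by
    have h1 : HasDerivWithinAt (fun r => (x r).1) (tot (x t) (xC pr L) * (x t).1) U t :=
      (ContinuousLinearMap.fst ℝ A A).hasFDerivAt.comp_hasDerivWithinAt t h
    have h2 : HasDerivWithinAt (fun r => (x r).2) (-tot (x t) (gC pr L)) U t :=
      (ContinuousLinearMap.snd ℝ A A).hasFDerivAt.comp_hasDerivWithinAt t h
    have hu : tot (x t) ((xC pr L).map fun p => (p.1, p.2 ++ [Atom.u])) =
        tot (x t) (xC pr L) * (x t).1 := by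
      rw [tot_map_right]; simp [Atom.val]
    have hd : HasDerivWithinAt (fun r => a.val (x r)) (tot (x t) (datom pr L a)) U t := by
      cases a with
      | u => simp only [datom, hu]; exact h1
      | ui => simp only [datom, tot_adjC _ hq, hu]; exact h1.star
      | q => simp only [datom, tot_neg]; exact h2
      | d c => exact hasDerivWithinAt_const t U _
      | v => exact hasDerivWithinAt_const t U _
      | vi => exact hasDerivWithinAt_const t U _
    have := hd.mul (hasDerivWithinAt_ev pr L hq h W)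
    simp only [ev_cons]
    rw [dev, tot_append, tot_map_right,
      show (fun p : ℂ × List (Atom S) => (p.1, a :: p.2)) = fun p => (p.1, [a] ++ p.2) from rfl,
      tot_map_left, ev_cons, ev_nil, mul_one]
    exact this

/-! ### Constancy of the law -/

theorem tau_tot (s : A × A) (hs : ∀ W : List (Atom S), S.τ (ev s W) = S.τ (ev (base S) W)) :
    ∀ l : Comb S, S.τ (tot s l) = S.τ (tot (base S) l)
  | [] => rfl
  | p :: l => by
    have h := tau_tot s hs l
    simp only [← tauC_apply] at h hs ⊢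
    simp only [tot_cons, map_add, map_smul, h, hs]

theorem tau_tot_sub_le (s s' : A × A) {K ρ : ℝ}
    (h : ∀ W : List (Atom S), ‖S.τ (ev s W) - S.τ (ev s' W)‖ ≤ K * ρ ^ W.length) :
    ∀ l : Comb S, ‖S.τ (tot s l) - S.τ (tot s' l)‖ ≤ K * wt ρ l
  | [] => by simp
  | p :: l => by
    have h' := tau_tot_sub_le s s' h l
    have hp := h p.2
    simp only [← tauC_apply] at h' hp ⊢
    rw [tot_cons, tot_cons, map_add, map_add, map_smul, map_smul, add_sub_add_comm, ← smul_sub,
      wt_cons, mul_add, mul_left_comm]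
    refine (norm_add_le _ _).trans (add_le_add ?_ h')
    rw [norm_smul]
    exact mul_le_mul_of_nonneg_left hp (norm_nonneg _)

theorem law_step [Nontrivial A] (pr : List (Const S × Const S)) (L : ℕ)
    (hinv : ∀ W : List (Atom S), S.τ (tot (base S) (dev pr L W)) = 0)
    {x : ℝ → A × A} {M lw a b : ℝ} (hM : 1 ≤ M)
    (hlw : 2 * (fwt pr L * M ^ flen pr L * Real.exp 1) ≤ lw)
    (hlw0 : 0 < lw) (hb : b ≤ a + 1 / (lw * flen pr L))
    (hx : ∀ t ∈ Icc a b, ‖x t‖ ≤ M)
    (hd : ∀ t ∈ Icc a b, ∀ W : List (Atom S),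
      HasDerivWithinAt (fun r => ev (x r) W) (tot (x t) (dev pr L W)) (Icc a b) t)
    (ha : ∀ W : List (Atom S), S.τ (ev (x a) W) = S.τ (ev (base S) W)) :
    ∀ t ∈ Icc a b, ∀ W : List (Atom S), S.τ (ev (x t) W) = S.τ (ev (base S) W) := by
  have hzero : ∀ W, S.τ (tot (x a) (dev pr L W)) = 0 := fun W =>
    (tau_tot (x a) ha _).trans (hinv W)
  have hF := fwt_nonneg pr L
  have hM0 : 0 ≤ M := zero_le_one.trans hM
  have key : ∀ k : ℕ, ∀ t ∈ Icc a b, ∀ W : List (Atom S),
      ‖S.τ (ev (x t) W) - S.τ (ev (x a) W)‖ ≤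
        2 * (1 / 2) ^ k * (M * Real.exp (lw * (t - a))) ^ W.length := by
    intro k
    induction k with
    | zero =>
      intro t ht W
      rw [pow_zero, mul_one]
      refine (norm_sub_le _ _).trans ?_
      have hone : 1 ≤ Real.exp (lw * (t - a)) :=
        Real.one_le_exp (mul_nonneg hlw0.le (sub_nonneg.2 ht.1))
      have e : ∀ r ∈ Icc a b, ‖S.τ (ev (x r) W)‖ ≤ (M * Real.exp (lw * (t - a))) ^ W.length :=
        fun r hr => ((tau_norm_le S _).trans (norm_ev_le hM (hx r hr) W)).trans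
          (pow_le_pow_left₀ hM0 (le_mul_of_one_le_right hM0 hone) _)
      rw [two_mul]
      exact add_le_add (e t ht) (e a ⟨le_rfl, ht.1.trans ht.2⟩)
    | succ k ih =>
      intro t ht W
      have hc : ∀ r ∈ Icc a b, HasDerivWithinAt
          (fun r => S.τ (ev (x r) W) - S.τ (ev (x a) W))
          (S.τ (tot (x r) (dev pr L W))) (Icc a b) r := fun r hr => by
        have := ((tauC S).restrictScalars ℝ).hasFDerivAt.comp_hasDerivWithinAt r (hd r hr W)
        exact this.sub_const _
      set n := W.length with hn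
      set B : ℝ → ℝ := fun r => 2 * (1 / 2) ^ (k + 1) * (M * Real.exp (lw * (r - a))) ^ n with hB
      set B' : ℝ → ℝ := fun r => n * lw * B r with hB'
      have hBd : ∀ r, HasDerivAt B (B' r) r := by
        intro r
        have he : HasDerivAt (fun r => Real.exp (n * (lw * (r - a))))
            (Real.exp (n * (lw * (r - a))) * (n * (lw * 1))) r :=
          ((((hasDerivAt_id r).sub_const a).const_mul lw).const_mul (n : ℝ)).exp
        have := he.const_mul (2 * (1 / 2 : ℝ) ^ (k + 1) * M ^ n)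
        refine (this.congr_deriv ?_).congr_of_eventuallyEq (Filter.Eventually.of_forall fun r => ?_)
        · simp only [hB', hB, mul_pow, ← Real.exp_nat_mul]; ring
        · simp only [hB, mul_pow, ← Real.exp_nat_mul]; ring
      refine image_norm_le_of_norm_deriv_right_le_deriv_boundary
        (f' := fun r => S.τ (tot (x r) (dev pr L W))) (B := B) (B' := B')
        (fun r hr => (hc r hr).continuousWithinAt)
        (fun r hr => (hc r (Ico_subset_Icc_self hr)).mono_of_mem_nhdsWithin
          (Icc_mem_nhdsGE_of_mem hr)) ?_ hBd ?_ ht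
      · simp only [hB, sub_self, norm_zero]; positivity
      · intro r hr
        set ρ := M * Real.exp (lw * (r - a)) with hρ
        have hρ1 : 1 ≤ ρ := one_le_mul_of_one_le_of_one_le hM
          (Real.one_le_exp (mul_nonneg hlw0.le (sub_nonneg.2 hr.1)))
        have h1 := tau_tot_sub_le (x r) (x a) (ih r (Ico_subset_Icc_self hr)) (dev pr L W)
        rw [hzero, sub_zero] at h1
        refine h1.trans ((mul_le_mul_of_nonneg_left (wt_dev_le hρ1 pr L W) (by positivity)).trans ?_)
        have hN : 0 < (flen pr L : ℝ) := Nat.cast_pos.2 (Nat.succ_pos _)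
        have hp : ρ ^ flen pr L ≤ M ^ flen pr L * Real.exp 1 := by
          rw [hρ, mul_pow, ← Real.exp_nat_mul]
          refine mul_le_mul_of_nonneg_left (Real.exp_le_exp.2 ?_) (pow_nonneg hM0 _)
          have h2 : r - a ≤ 1 / (lw * flen pr L) := by linarith [hr.2]
          rw [le_div_iff₀ (mul_pos hlw0 hN)] at h2
          linarith
        have h3 : fwt pr L * ρ ^ flen pr L ≤ lw / 2 := by
          have := mul_le_mul_of_nonneg_left hp hF
          linarith
        simp only [hB', hB, ← hρ, ← hn, pow_add, pow_one]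
        have h4 : (0 : ℝ) ≤ 2 * (1 / 2) ^ k * n * ρ ^ n := by positivity
        calc 2 * (1 / 2) ^ k * ((n : ℝ) * fwt pr L * (ρ ^ n * ρ ^ flen pr L))
            = 2 * (1 / 2) ^ k * n * ρ ^ n * (fwt pr L * ρ ^ flen pr L) := by ring
          _ ≤ 2 * (1 / 2) ^ k * n * ρ ^ n * (lw / 2) := mul_le_mul_of_nonneg_left h3 h4
          _ = _ := by ring
  intro t ht W
  rw [← ha W]
  refine sub_eq_zero.1 (norm_le_zero_iff.1 ?_)
  have hlim : Filter.Tendsto
      (fun k : ℕ => 2 * (1 / 2 : ℝ) ^ k * (M * Real.exp (lw * (t - a))) ^ W.length)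
      Filter.atTop (𝓝 0) := by
    have := ((tendsto_pow_atTop_nhds_zero_of_lt_one (by norm_num : (0 : ℝ) ≤ 1 / 2)
      (by norm_num)).const_mul 2).mul_const ((M * Real.exp (lw * (t - a))) ^ W.length)
    simpa using this
  exact ge_of_tendsto' hlim fun k => key k t ht W

/-! ### Membership -/

theorem ev_mem (B : StarSubalgebra ℂ A) (hD : ∀ c ∈ S.D, c ∈ B) (hv : (S.u2 : A) ∈ B) {s : A × A}
    (h1 : s.1 ∈ B) (h2 : s.2 ∈ B) : ∀ W : List (Atom S), ev s W ∈ B
  | [] => by simp [one_mem]
  | a :: W => by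
    rw [ev_cons]
    refine mul_mem ?_ (ev_mem B hD hv h1 h2 W)
    cases a with
    | d c => exact hD _ c.2.1
    | u => exact h1
    | ui => exact star_mem h1
    | v => exact hv
    | vi => exact star_mem hv
    | q => exact h2

theorem tot_mem (B : StarSubalgebra ℂ A) (hD : ∀ c ∈ S.D, c ∈ B) (hv : (S.u2 : A) ∈ B) {s : A × A}
    (h1 : s.1 ∈ B) (h2 : s.2 ∈ B) : ∀ l : Comb S, tot s l ∈ B
  | [] => by simp [zero_mem]
  | p :: l => by
    rw [tot_cons]
    exact add_mem (SMulMemClass.smul_mem _ (ev_mem B hD hv h1 h2 _)) (tot_mem B hD hv h1 h2 l)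

/-- A Lipschitz field preserving a closed subspace can be followed backwards inside it. -/
theorem backwards {E : Type} [NormedAddCommGroup E] [NormedSpace ℝ E] (V : Submodule ℝ E)
    (hV : IsClosed (V : Set E)) (F : E → E) {K : ℝ} (hK : 0 ≤ K)
    (hF : ∀ y y', ‖F y - F y'‖ ≤ K * ‖y - y'‖) (hFV : ∀ y ∈ V, F y ∈ V) {x : ℝ → E} {r T : ℝ}
    (hr : r ∈ Icc 0 T) (hd : ∀ t ∈ Icc 0 T, HasDerivWithinAt x (F (x t)) (Icc 0 T) t)
    (hxr : x r ∈ V) : x 0 ∈ V := by
  have : IsClosed (V : Set E) := hV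
  let π : E →L[ℝ] E ⧸ V := V.mkQ.mkContinuous 1 fun m => by
    rw [one_mul]; exact Submodule.Quotient.norm_mk_le V m
  have hπ : ∀ m, π m = Submodule.Quotient.mk m := fun m => rfl
  have hle : ∀ y, ‖π (F y)‖ ≤ K * ‖π y‖ := by
    intro y
    refine le_of_forall_pos_le_add fun ε hε => ?_
    obtain ⟨m, hm, hmn⟩ := Submodule.Quotient.norm_mk_lt (π y) (div_pos hε (by linarith : 0 < K + 1))
    have hy : y - m ∈ V := by
      rw [← Submodule.Quotient.eq, hm, hπ]
    have e : π (F y) = π (F y - F (y - m)) := by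
      rw [map_sub, hπ (F (y - m)), (Submodule.Quotient.mk_eq_zero V).2 (hFV _ hy), sub_zero]
    rw [e]
    calc ‖π (F y - F (y - m))‖ ≤ ‖F y - F (y - m)‖ := by
          rw [hπ]; exact Submodule.Quotient.norm_mk_le V _
      _ ≤ K * ‖y - (y - m)‖ := hF _ _
      _ = K * ‖m‖ := by rw [sub_sub_cancel]
      _ ≤ K * (‖π y‖ + ε / (K + 1)) := mul_le_mul_of_nonneg_left hmn.le hK
      _ ≤ K * ‖π y‖ + ε := by
          rw [mul_add]
          have : K * (ε / (K + 1)) ≤ ε := by
            rw [mul_div_assoc', div_le_iff₀ (by linarith : 0 < K + 1)]; nlinarith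
          linarith
  have hmaps : MapsTo (fun t => r - t) (Icc 0 r) (Icc 0 T) := fun t ht =>
    ⟨sub_nonneg.2 ht.2, by linarith [ht.1, hr.2]⟩
  have hz : ∀ t ∈ Icc 0 r,
      HasDerivWithinAt (fun t => π (x (r - t))) (π ((-1 : ℝ) • F (x (r - t)))) (Icc 0 r) t :=
    fun t ht => π.hasFDerivAt.comp_hasDerivWithinAt t
      ((hd _ (hmaps ht)).scomp t ((hasDerivWithinAt_id t _).const_sub r) hmaps)
  have h0 := eq_zero_of_abs_deriv_le_mul_abs_self_of_eq_zero_right
    (f := fun t => π (x (r - t))) (f' := fun t => π ((-1 : ℝ) • F (x (r - t)))) (K := K)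
    (fun t ht => (hz t ht).continuousWithinAt)
    (fun t ht => (hz t (Ico_subset_Icc_self ht)).mono_of_mem_nhdsWithin
      (Icc_mem_nhdsGE_of_mem ht))
    (by simpa [hπ, Submodule.Quotient.mk_eq_zero] using hxr)
    (fun t ht => by simpa using hle (x (r - t))) r ⟨hr.1, le_rfl⟩
  simpa [hπ, Submodule.Quotient.mk_eq_zero] using h0

end FlowProof

open FlowProof in
/-- The flow of the field preserves the law and is reversible. -/
theorem flow : FlowSpec := by
  intro A _ H _ _ S K P a b L _ hinv hskew s hs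
  have := nontriv S
  set pr := P.pairs a b with hpr
  set T : ℝ := Real.pi / 2 with hT
  have hT0 : 0 ≤ T := by positivity
  set cg : ℝ := wt 1 (gC pr L) with hcg
  have hcg0 : 0 ≤ cg := wt_nonneg zero_le_one _
  set M : ℝ := 1 + ‖s.2‖ + cg * T with hMdef
  have hM : 1 ≤ M := by nlinarith [norm_nonneg s.2]
  have hM0 : 0 < M := zero_lt_one.trans_le hM
  set F := cfield pr L M with hF
  set Lb : ℝ := wt M (xC pr L) * M + wt M (gC pr L) with hLb
  have hLb0 : 0 ≤ Lb :=
    add_nonneg (mul_nonneg (wt_nonneg hM0.le _) hM0.le) (wt_nonneg hM0.le _)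
  have hpl : IsPicardLindelof (fun _ => F) (tmin := 0) (tmax := T) ⟨0, le_rfl, hT0⟩ s
      (Lb * T).toNNReal 0 Lb.toNNReal (clc pr L M).toNNReal := by
    refine IsPicardLindelof.of_time_independent (fun y _ => ?_) ?_ ?_
    · rw [Real.coe_toNNReal _ hLb0]; exact norm_cfield_le pr L hM y
    · refine (LipschitzWith.of_dist_le_mul fun y y' => ?_).lipschitzOnWith
      rw [dist_eq_norm, dist_eq_norm, Real.coe_toNNReal _ (clc_nonneg pr L hM0.le)]
      exact cfield_lip pr L hM y y'
    · rw [Real.coe_toNNReal _ hLb0, Real.coe_toNNReal _ (mul_nonneg hLb0 hT0)]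
      simp [hT0]
  obtain ⟨x, hx0, hd⟩ := hpl.exists_eq_forall_mem_Icc_hasDerivWithinAt₀
  have hx0' : x 0 = s := hx0
  have hd1 : ∀ t ∈ Icc 0 T, HasDerivWithinAt (fun r => (x r).1) (F (x t)).1 (Icc 0 T) t :=
    fun t ht => (ContinuousLinearMap.fst ℝ A A).hasFDerivAt.comp_hasDerivWithinAt t (hd t ht)
  have hd2 : ∀ t ∈ Icc 0 T, HasDerivWithinAt (fun r => (x r).2) (F (x t)).2 (Icc 0 T) t :=
    fun t ht => (ContinuousLinearMap.snd ℝ A A).hasFDerivAt.comp_hasDerivWithinAt t (hd t ht)
  have hright : ∀ {t : ℝ}, t ∈ Ico (0 : ℝ) T → Icc (0 : ℝ) T ∈ 𝓝[Ici t] t :=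
    fun ht => Icc_mem_nhdsGE_of_mem ht
  -- `q` stays self-adjoint
  have hq : ∀ t ∈ Icc 0 T, star (x t).2 = (x t).2 := by
    intro t ht
    have hder : ∀ r ∈ Icc 0 T,
        HasDerivWithinAt (fun r => star (x r).2 - (x r).2) 0 (Icc 0 T) r := fun r hr => by
      have h := (hd2 r hr).star.sub (hd2 r hr)
      have e : star (F (x r)).2 - (F (x r)).2 = 0 := by
        simp only [hF, cfield, field]
        rw [star_neg, star_tot_gC, sub_self]
      rwa [e] at h
    have h := constant_of_has_deriv_right_zero (f := fun r => star (x r).2 - (x r).2)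
      (fun r hr => (hder r hr).continuousWithinAt)
      (fun r hr => (hder r (Ico_subset_Icc_self hr)).mono_of_mem_nhdsWithin (hright hr)) t ht
    simp only [hx0', hs.sa, sub_self] at h
    exact sub_eq_zero.1 h
  have hskew' : ∀ t ∈ Icc 0 T, star (tot (clip2 M (x t)) (xC pr L)) =
      -tot (clip2 M (x t)) (xC pr L) := fun t ht => hskew _ (star_clip M (hq t ht))
  -- `u` stays unitary
  have hu1 : ∀ t ∈ Icc 0 T, star (x t).1 * (x t).1 = 1 := by
    intro t ht
    have hder : ∀ r ∈ Icc 0 T,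
        HasDerivWithinAt (fun r => star (x r).1 * (x r).1) 0 (Icc 0 T) r := fun r hr => by
      have h := (hd1 r hr).star.mul (hd1 r hr)
      have e : star (F (x r)).1 * (x r).1 + star (x r).1 * (F (x r)).1 = 0 := by
        simp only [hF, cfield, field, clip2, clip]
        have hX := hskew' r hr
        simp only [clip2, clip] at hX
        rw [mul_smul_comm, star_smul, star_mul, hX, smul_mul_assoc, mul_smul_comm,
          show star ((scl M (x r).1 : ℝ) : ℂ) = ((scl M (x r).1 : ℝ) : ℂ) from Complex.conj_ofReal _,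
          mul_neg, neg_mul, mul_assoc, smul_neg, neg_add_cancel]
      rwa [e] at h
    have h := constant_of_has_deriv_right_zero (f := fun r => star (x r).1 * (x r).1)
      (fun r hr => (hder r hr).continuousWithinAt)
      (fun r hr => (hder r (Ico_subset_Icc_self hr)).mono_of_mem_nhdsWithin (hright hr)) t ht
    simp only [hx0'] at h
    exact h.trans (Unitary.star_mul_self_of_mem hs.unit)
  have hu2 : ∀ t ∈ Icc 0 T, (x t).1 * star (x t).1 = 1 := by
    intro t ht
    set z : ℝ → A := fun r => (x r).1 * star (x r).1 - 1 with hz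
    set X : ℝ → A := fun r => tot (clip2 M (x r)) (xC pr L) with hX
    set c : ℝ → ℂ := fun r => ((scl M (x r).1 : ℝ) : ℂ) with hc
    have hder : ∀ r ∈ Icc 0 T, HasDerivWithinAt z
        (c r • (X r * z r - z r * X r)) (Icc 0 T) r := fun r hr => by
      have h := ((hd1 r hr).mul (hd1 r hr).star).sub_const 1
      have e : (F (x r)).1 * star (x r).1 + (x r).1 * star (F (x r)).1 =
          c r • (X r * z r - z r * X r) := by
        have e1 : (F (x r)).1 = c r • (X r * (x r).1) := by
          simp only [hF, cfield, field, hX, hc, clip2, clip, mul_smul_comm]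
        have e2 : star (c r) = c r := Complex.conj_ofReal _
        have e3 : star (X r) = -X r := hskew' r hr
        simp only [hz]
        rw [e1, star_smul, star_mul, e2, e3, smul_mul_assoc, mul_smul_comm, ← smul_add]
        congr 1
        noncomm_ring
      rwa [e] at h
    have h := eq_zero_of_abs_deriv_le_mul_abs_self_of_eq_zero_right (f := z)
      (f' := fun r => c r • (X r * z r - z r * X r)) (K := 2 * wt M (xC pr L))
      (fun r hr => (hder r hr).continuousWithinAt)
      (fun r hr => (hder r (Ico_subset_Icc_self hr)).mono_of_mem_nhdsWithin (hright hr))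
      (by simp only [hz, hx0', Unitary.mul_star_self_of_mem hs.unit, sub_self])
      (fun r _ => by
        have hXn : ‖X r‖ ≤ wt M (xC pr L) := norm_tot_le hM (norm_clip2_le hM0 _) _
        have hcn : ‖c r‖ ≤ 1 := by
          rw [hc, Complex.norm_real, Real.norm_of_nonneg (scl_nonneg hM0 _)]
          exact scl_le_one hM0 _
        rw [norm_smul]
        refine (mul_le_of_le_one_left (norm_nonneg _) hcn).trans ((norm_sub_le _ _).trans ?_)
        have a1 := norm_mul_le (X r) (z r)
        have a2 := norm_mul_le (z r) (X r)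
        nlinarith [norm_nonneg (z r)]) t ht
    exact sub_eq_zero.1 h
  have hun : ∀ t ∈ Icc 0 T, ‖(x t).1‖ ≤ 1 := fun t ht =>
    le_of_eq (CStarRing.norm_of_mem_unitary (Unitary.mem_iff.2 ⟨hu1 t ht, hu2 t ht⟩))
  -- `q` stays bounded
  have hqn : ∀ t ∈ Icc 0 T, ‖(x t).2‖ ≤ M := by
    intro t ht
    have h := norm_image_sub_le_of_norm_deriv_le_segment' hd2 (C := cg) (fun r hr => by
      have hr' := Ico_subset_Icc_self hr
      have h1 : ‖((clip2 M (x r)).1, (0 : A))‖ ≤ 1 := by
        refine max_le ?_ (by simp)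
        show ‖clip M (x r).1‖ ≤ 1
        rw [clip_of_le hM0 ((hun r hr').trans hM)]
        exact hun r hr'
      simp only [hF, cfield, field, norm_neg]
      rw [tot_gC_eq, ← tot_gC_eq pr L ((clip2 M (x r)).1, (0 : A))]
      exact norm_tot_le le_rfl h1 _) t ht
    rw [hx0', sub_zero] at h
    have h3 : ‖(x t).2‖ ≤ ‖(x t).2 - s.2‖ + ‖s.2‖ := norm_le_norm_sub_add _ _
    nlinarith [mul_le_mul_of_nonneg_left ht.2 hcg0]
  have hxn : ∀ t ∈ Icc 0 T, ‖x t‖ ≤ M := fun t ht =>
    max_le ((hun t ht).trans hM) (hqn t ht)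
  have hfield : ∀ t ∈ Icc 0 T, F (x t) = field pr L (x t) := fun t ht => by
    simp only [hF, cfield, clip2, clip_of_le hM0 ((hun t ht).trans hM),
      clip_of_le hM0 (hqn t ht), Prod.mk.eta]
  have hdx : ∀ t ∈ Icc 0 T, HasDerivWithinAt x (field pr L (x t)) (Icc 0 T) t := fun t ht => by
    rw [← hfield t ht]; exact hd t ht
  have hev : ∀ t ∈ Icc 0 T, ∀ W : List (Atom S),
      HasDerivWithinAt (fun r => ev (x r) W) (tot (x t) (dev pr L W)) (Icc 0 T) t :=
    fun t ht => hasDerivWithinAt_ev pr L (hq t ht) (hdx t ht)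
  -- the law is constant
  set lw : ℝ := 2 * (fwt pr L * M ^ flen pr L * Real.exp 1) + 1 with hlw
  have hlw0 : 0 < lw := by
    have := fwt_nonneg pr L
    rw [hlw]; positivity
  have hlen : 0 < (flen pr L : ℝ) := Nat.cast_pos.2 (Nat.succ_pos _)
  set h : ℝ := 1 / (lw * flen pr L) with hh
  have hh0 : 0 < h := by positivity
  have hlaw : ∀ m : ℕ, ∀ t ∈ Icc 0 (min T (m * h)), ∀ W : List (Atom S),
      S.τ (ev (x t) W) = S.τ (ev (base S) W) := by
    intro m
    induction m with
    | zero =>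
      intro t ht W
      have : t = 0 := le_antisymm (by simpa [hT0] using ht.2) ht.1
      rw [this, hx0']
      exact hs.law W
    | succ m ih =>
      intro t ht W
      rcases le_total t (min T (m * h)) with h1 | h1
      · exact ih t ⟨ht.1, h1⟩ W
      set a' := min T (m * h) with ha'
      have ha0 : 0 ≤ a' := le_min hT0 (by positivity)
      have hsub : Icc a' (min T ((m + 1 : ℕ) * h)) ⊆ Icc 0 T :=
        Icc_subset_Icc ha0 (min_le_left _ _)
      refine law_step pr L hinv (lw := lw) hM (le_add_of_nonneg_right zero_le_one) hlw0 ?_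
        (fun r hr => hxn r (hsub hr)) (fun r hr W => (hev r (hsub hr) W).mono hsub)
        (fun W => ih a' ⟨ha0, le_rfl⟩ W) t ⟨h1, ht.2⟩ W
      rw [← hh, ha']
      push_cast
      rcases le_total T (m * h) with h2 | h2
      · rw [min_eq_left h2]; linarith [min_le_left T (((m : ℝ) + 1) * h)]
      · rw [min_eq_right h2]; linarith [min_le_right T (((m : ℝ) + 1) * h)]
  have hLaw : ∀ t ∈ Icc 0 T, Law S (x t) := fun t ht => by
    obtain ⟨m, hm⟩ := exists_nat_ge (T / h)
    refine ⟨Unitary.mem_iff.2 ⟨hu1 t ht, hu2 t ht⟩, hq t ht, hlaw m t ⟨ht.1, le_min ht.2 ?_⟩⟩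
    exact ht.2.trans ((div_le_iff₀ hh0).1 hm)
  refine ⟨x, hx0', fun t ht => ⟨hLaw t ht, hdx t ht, hev t ht⟩, fun r hr => ?_⟩
  -- reversibility
  set B := (StarAlgebra.adjoin ℂ ((S.D : Set A) ∪
    {(S.u2 : A), (x r).1, (x r).2})).topologicalClosure with hB
  have hmem : ∀ y ∈ (S.D : Set A) ∪ {(S.u2 : A), (x r).1, (x r).2}, y ∈ B := fun y hy =>
    StarSubalgebra.le_topologicalClosure _ (StarAlgebra.subset_adjoin ℂ _ hy)
  have hD : ∀ c ∈ S.D, c ∈ B := fun c hc => hmem c (Or.inl hc)
  have hv : (S.u2 : A) ∈ B := hmem _ (by simp)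
  let Bs : Submodule ℝ A := B.toSubalgebra.toSubmodule.restrictScalars ℝ
  have hBc : IsClosed ((Bs.prod Bs : Submodule ℝ (A × A)) : Set (A × A)) :=
    (StarSubalgebra.isClosed_topologicalClosure _).prod
      (StarSubalgebra.isClosed_topologicalClosure _)
  have h := backwards (Bs.prod Bs) hBc F (clc_nonneg pr L hM0.le) (cfield_lip pr L hM)
    (fun y hy => by
      have hy1 : y.1 ∈ B := hy.1
      have hy2 : y.2 ∈ B := hy.2
      have c1 : clip M y.1 ∈ B := SMulMemClass.smul_mem _ hy1
      have c2 : clip M y.2 ∈ B := SMulMemClass.smul_mem _ hy2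
      have d1 : (F y).1 ∈ B := mul_mem (tot_mem B hD hv c1 c2 _) c1
      have d2 : (F y).2 ∈ B := neg_mem (tot_mem B hD hv c1 c2 _)
      exact ⟨d1, d2⟩)
    hr hd ⟨hmem _ (by simp), hmem _ (by simp)⟩
  rw [hx0'] at h
  exact ⟨h.1, h.2⟩

end VP086
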