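import Vale.Agent.P086.System

/-!
P086: a derivation of one of two free algebras, extended by zero to the other, has as conjugate
variable the one it has on the first algebra.
-/

open scoped TensorProduct

namespace VP086

variable {A : Type} [CStarAlgebra A] {H : Type} [NormedAddCommGroup H] [InnerProductSpace ℂ H]

namespace Std

variable (S : Std A H)

theorem τ_one : S.τ 1 = 1 := by
  rw [τ, inner_self_eq_norm_sq_to_K, S.norm_one]
  simp

/-- The trace as a linear map. -/
noncomputable def τL : A →ₗ[ℂ] ℂ := (innerSL ℂ (S.ι 1)).toLinearMap ∘ₗ S.ι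

@[simp] theorem τL_apply (x : A) : S.τL x = S.τ x := rfl

theorem τ_add (x y : A) : S.τ (x + y) = S.τ x + S.τ y := S.τL.map_add x y

theorem τ_sub (x y : A) : S.τ (x - y) = S.τ x - S.τ y := S.τL.map_sub x y

theorem τ_smul (c : ℂ) (x : A) : S.τ (c • x) = c * S.τ x := S.τL.map_smul c x

theorem τ_zero : S.τ 0 = 0 := S.τL.map_zero

theorem τ_neg (x : A) : S.τ (-x) = -S.τ x := S.τL.map_neg x

theorem τ_sum {ι : Type} (s : Finset ι) (f : ι → A) : S.τ (∑ i ∈ s, f i) = ∑ i ∈ s, S.τ (f i) :=
  map_sum S.τL f s

theorem τ_center (x : A) : S.τ (x - S.τ x • 1) = 0 := by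
  rw [τ_sub, τ_smul, τ_one, mul_one, sub_self]

end Std

section Extension

variable (S : Std A H) {P : Type} [Ring P] [Algebra ℂ P] (φ : P →ₐ[ℂ] A) (A₂ : Subalgebra ℂ A)
  (dd : P →ₗ[ℂ] P ⊗[ℂ] P)

/-- Letters of the two algebras. -/
abbrev FLet (A₂ : Subalgebra ℂ A) (P : Type) : Type := P ⊕ A₂

/-- The value of a letter. -/
def lval : FLet A₂ P → A
  | Sum.inl x => φ x
  | Sum.inr a => a

/-- The value of a word. -/
def wval (W : List (FLet A₂ P)) : A := (W.map (lval φ A₂)).prod

@[simp] theorem wval_nil : wval φ A₂ ([] : List (FLet A₂ P)) = 1 := rfl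

@[simp] theorem wval_cons (l : FLet A₂ P) (W : List (FLet A₂ P)) :
    wval φ A₂ (l :: W) = lval φ A₂ l * wval φ A₂ W := by simp [wval]

theorem wval_append (U V : List (FLet A₂ P)) :
    wval φ A₂ (U ++ V) = wval φ A₂ U * wval φ A₂ V := by simp [wval]

/-- The pairing of a cut between two contexts. -/
noncomputable def cutPair (pre post : A) : P ⊗[ℂ] P →ₗ[ℂ] ℂ :=
  TensorProduct.lift
    (LinearMap.mk₂ ℂ (fun a b => S.τ (pre * φ a) * S.τ (φ b * post))
      (fun a a' b => by rw [map_add, mul_add, S.τ_add, add_mul])
      (fun c a b => by rw [map_smul, mul_smul_comm, S.τ_smul, smul_eq_mul, mul_assoc])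
      (fun a b b' => by rw [map_add, add_mul, S.τ_add, mul_add])
      (fun c a b => by rw [map_smul, smul_mul_assoc, S.τ_smul, smul_eq_mul, mul_left_comm]))

@[simp] theorem cutPair_tmul (pre post : A) (a b : P) :
    cutPair S φ pre post (a ⊗ₜ b) = S.τ (pre * φ a) * S.τ (φ b * post) := rfl

/-- The sum over the cuts of a word. -/
noncomputable def cuts : A → A → List (FLet A₂ P) → ℂ
  | _, _, [] => 0
  | pre, post, Sum.inl x :: W =>
      cutPair S φ pre (wval φ A₂ W * post) (dd x) + cuts (pre * φ x) post W
  | pre, post, Sum.inr a :: W => cuts (pre * a) post W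

variable {S φ A₂ dd}

theorem cuts_append (pre post : A) (U V : List (FLet A₂ P)) :
    cuts S φ A₂ dd pre post (U ++ V) =
      cuts S φ A₂ dd pre (wval φ A₂ V * post) U + cuts S φ A₂ dd (pre * wval φ A₂ U) post V := by
  induction U generalizing pre with
  | nil => simp [cuts]
  | cons l U ih =>
    cases l with
    | inl x =>
      simp only [List.cons_append, cuts, ih, wval_cons, lval, wval_append, mul_assoc]
      ring
    | inr a => simp only [List.cons_append, cuts, ih, wval_cons, lval, mul_assoc]

theorem cutPair_add_pre (pre pre' post : A) (z : P ⊗[ℂ] P) :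
    cutPair S φ (pre + pre') post z = cutPair S φ pre post z + cutPair S φ pre' post z := by
  induction z with
  | zero => simp
  | tmul a b => simp only [cutPair_tmul, add_mul, S.τ_add]
  | add z z' h h' => simp only [map_add, h, h']; ring

theorem cutPair_smul_pre (c : ℂ) (pre post : A) (z : P ⊗[ℂ] P) :
    cutPair S φ (c • pre) post z = c * cutPair S φ pre post z := by
  induction z with
  | zero => simp
  | tmul a b => simp only [cutPair_tmul, smul_mul_assoc, S.τ_smul]; ring
  | add z z' h h' => simp only [map_add, h, h']; ring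

theorem cutPair_add_post (pre post post' : A) (z : P ⊗[ℂ] P) :
    cutPair S φ pre (post + post') z = cutPair S φ pre post z + cutPair S φ pre post' z := by
  induction z with
  | zero => simp
  | tmul a b => simp only [cutPair_tmul, mul_add, S.τ_add]
  | add z z' h h' => simp only [map_add, h, h']; ring

theorem cutPair_smul_post (c : ℂ) (pre post : A) (z : P ⊗[ℂ] P) :
    cutPair S φ pre (c • post) z = c * cutPair S φ pre post z := by
  induction z with
  | zero => simp
  | tmul a b => simp only [cutPair_tmul, mul_smul_comm, S.τ_smul]; ring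
  | add z z' h h' => simp only [map_add, h, h']; ring

theorem cuts_lin_pre (c : ℂ) (pre pre' post : A) (W : List (FLet A₂ P)) :
    cuts S φ A₂ dd (c • pre + pre') post W =
      c * cuts S φ A₂ dd pre post W + cuts S φ A₂ dd pre' post W := by
  induction W generalizing pre pre' with
  | nil => simp [cuts]
  | cons l W ih =>
    cases l with
    | inl x =>
      simp only [cuts, add_mul, smul_mul_assoc, ih, cutPair_add_pre, cutPair_smul_pre]
      ring
    | inr a => simp only [cuts, add_mul, smul_mul_assoc, ih]

theorem cuts_lin_post (c : ℂ) (pre post post' : A) (W : List (FLet A₂ P)) :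
    cuts S φ A₂ dd pre (c • post + post') W =
      c * cuts S φ A₂ dd pre post W + cuts S φ A₂ dd pre post' W := by
  induction W generalizing pre with
  | nil => simp [cuts]
  | cons l W ih =>
    cases l with
    | inl x =>
      simp only [cuts, mul_add, mul_smul_comm, ih, cutPair_add_post, cutPair_smul_post]
      ring
    | inr a => simp only [cuts, ih]

/-- Splitting off a scalar from a letter. -/
theorem cuts_split (hd1 : dd 1 = 0) (c : ℂ) (U V : List (FLet A₂ P)) (l l' : FLet A₂ P)
    (h : (∃ x, l = Sum.inl x ∧ l' = Sum.inl (x - c • 1)) ∨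
      (∃ a, l = Sum.inr a ∧ l' = Sum.inr (a - c • 1))) :
    cuts S φ A₂ dd 1 1 (U ++ l :: V) =
        cuts S φ A₂ dd 1 1 (U ++ l' :: V) + c * cuts S φ A₂ dd 1 1 (U ++ V) ∧
      wval φ A₂ (U ++ l :: V) = wval φ A₂ (U ++ l' :: V) + c • wval φ A₂ (U ++ V) := by
  have hval : lval φ A₂ l = c • (1 : A) + lval φ A₂ l' := by
    rcases h with ⟨x, rfl, rfl⟩ | ⟨a, rfl, rfl⟩
    · simp [lval, map_sub]
    · simp [lval]
  constructor
  · rw [cuts_append, cuts_append, cuts_append, wval_cons, wval_cons, hval]
    simp only [mul_one, one_mul, add_mul, smul_mul_assoc, cuts_lin_post]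
    have e : cuts S φ A₂ dd (wval φ A₂ U) 1 (l :: V) =
        c * cuts S φ A₂ dd (wval φ A₂ U) 1 V + cuts S φ A₂ dd (wval φ A₂ U) 1 (l' :: V) := by
      rcases h with ⟨x, rfl, rfl⟩ | ⟨a, rfl, rfl⟩
      · simp only [cuts, map_sub, map_smul, hd1, smul_zero, sub_zero, map_one]
        rw [show wval φ A₂ U * φ x = c • wval φ A₂ U + wval φ A₂ U * (φ x - c • 1) by
          rw [mul_sub, mul_smul_comm, mul_one]; abel, cuts_lin_pre]
        ring
      · simp only [cuts]
        rw [show wval φ A₂ U * (a : A) = c • wval φ A₂ U + wval φ A₂ U * ((a - c • 1 : A₂) : A) by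
          push_cast; rw [mul_sub, mul_smul_comm, mul_one]; abel, cuts_lin_pre]
    rw [e]
    ring
  · rw [wval_append, wval_append, wval_append, wval_cons, wval_cons, hval, add_mul, smul_mul_assoc,
      one_mul, mul_add, mul_smul_comm]
    abel

omit [Ring P] [Algebra ℂ P] in
theorem chain_congr {W W' : List (P ⊕ A₂)} (h : W.map Sum.isLeft = W'.map Sum.isLeft)
    (hW : W.IsChain fun l l' => Sum.isLeft l ≠ Sum.isLeft l') :
    W'.IsChain fun l l' => Sum.isLeft l ≠ Sum.isLeft l' := by
  have h1 := (List.isChain_map Sum.isLeft (R := fun a b : Bool => a ≠ b) (l := W)).2 hW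
  rw [h] at h1
  exact (List.isChain_map Sum.isLeft).1 h1

/-- Alternating products of centred letters have trace zero. -/
theorem wval_zero (hfree : IsFree S (Set.range φ) (A₂ : Set A)) (W : List (FLet A₂ P))
    (hne : W ≠ []) (hc : ∀ l ∈ W, S.τ (lval φ A₂ l) = 0)
    (halt : W.IsChain fun l l' => Sum.isLeft l ≠ Sum.isLeft l') : S.τ (wval φ A₂ W) = 0 := by
  have := hfree (W.map fun l => (Sum.isLeft l, lval φ A₂ l)) (by simpa using hne)
    (by
      intro p hp
      obtain ⟨l, hl, rfl⟩ := List.mem_map.1 hp
      refine ⟨hc l hl, ?_⟩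
      cases l with
      | inl x => exact ⟨x, rfl⟩
      | inr a => exact a.2)
    (by rw [List.isChain_map]; exact halt)
  simpa [List.map_map, Function.comp_def, wval] using this

/-- The extension lemma for alternating centred words. -/
theorem cuts_centred (hfree : IsFree S (Set.range φ) (A₂ : Set A)) (hd1 : dd 1 = 0) (j : P)
    (hj : ∀ x, cutPair S φ 1 1 (dd x) = S.τ (φ j * φ x)) (W : List (FLet A₂ P))
    (hc : ∀ l ∈ W, S.τ (lval φ A₂ l) = 0)
    (halt : W.IsChain fun l l' => Sum.isLeft l ≠ Sum.isLeft l') :
    cuts S φ A₂ dd 1 1 W = S.τ (φ j * wval φ A₂ W) := by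
  have hjτ : S.τ (φ j) = 0 := by simpa [hd1] using (hj 1).symm
  have hcen : ∀ a : P, S.τ (lval φ A₂ (Sum.inl (a - S.τ (φ a) • 1) : FLet A₂ P)) = 0 := fun a => by
    simp only [lval, map_sub, map_smul, map_one]; exact S.τ_center _
  have hsplit : ∀ a : P, φ a = S.τ (φ a) • 1 + lval φ A₂ (Sum.inl (a - S.τ (φ a) • 1) : FLet A₂ P) :=
    fun a => by simp [lval, map_sub]
  have hR : ∀ (U : List (FLet A₂ P)) (a : P), U ≠ [] →
      (∀ l ∈ U, S.τ (lval φ A₂ l) = 0) →
      (U ++ [Sum.inl a]).IsChain (fun l l' => Sum.isLeft l ≠ Sum.isLeft l') →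
      S.τ (wval φ A₂ U * φ a) = 0 := by
    intro U a hU hUc hUa
    have h1 := wval_zero hfree U hU hUc (List.isChain_append.1 hUa).1
    have h2 := wval_zero hfree (U ++ [Sum.inl (a - S.τ (φ a) • 1)]) (by simp)
      (by simp only [List.mem_append, List.mem_singleton]; rintro l (hl | rfl)
          exacts [hUc l hl, hcen a]) (chain_congr (by simp) hUa)
    rw [wval_append, wval_cons, wval_nil, mul_one] at h2
    rw [hsplit a, mul_add, S.τ_add, h2, mul_smul_comm, mul_one, S.τ_smul, h1, mul_zero, add_zero]
  have hL : ∀ (V : List (FLet A₂ P)) (a : P), V ≠ [] →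
      (∀ l ∈ V, S.τ (lval φ A₂ l) = 0) →
      (Sum.inl a :: V).IsChain (fun l l' => Sum.isLeft l ≠ Sum.isLeft l') →
      S.τ (φ a * wval φ A₂ V) = 0 := by
    intro V a hV hVc hVa
    have h1 := wval_zero hfree V hV hVc hVa.tail
    have h2 := wval_zero hfree (Sum.inl (a - S.τ (φ a) • 1) :: V) (by simp)
      (by simp only [List.mem_cons]; rintro l (rfl | hl)
          exacts [hcen a, hVc l hl]) (chain_congr (by simp) hVa)
    rw [wval_cons] at h2
    rw [hsplit a, add_mul, S.τ_add, h2, smul_mul_assoc, one_mul, S.τ_smul, h1, mul_zero, add_zero]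
  match W, hc, halt with
  | [], _, _ => simpa [cuts] using hjτ.symm
  | [Sum.inl x], _, _ => simpa [cuts, lval] using hj x
  | [Sum.inr a], hc, _ =>
    have h2 := wval_zero hfree [Sum.inl j, Sum.inr a] (by simp)
      (by simp only [List.mem_cons, List.not_mem_nil, or_false]; rintro l (rfl | rfl)
          exacts [hjτ, hc _ (by simp)]) (List.IsChain.cons_cons (by simp) (List.IsChain.singleton _))
    simpa [cuts, lval] using h2.symm
  | l₁ :: l₂ :: W, hc, halt =>
    set Z := l₁ :: l₂ :: W with hZ
    have hz : ∀ V U, Z = U ++ V → cuts S φ A₂ dd (wval φ A₂ U) 1 V = 0 := by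
      intro V
      induction V with
      | nil => intros; rfl
      | cons l V ih =>
        intro U e
        have e' := ih (U ++ [l]) (by simp [e])
        rw [wval_append, wval_cons, wval_nil, mul_one] at e'
        cases l with
        | inr a => simpa [cuts, lval] using e'
        | inl x =>
          simp only [cuts, lval] at e' ⊢
          rw [e', add_zero, mul_one]
          have hne : U ≠ [] ∨ V ≠ [] := by
            by_contra hh
            push Not at hh
            simp [hh.1, hh.2, hZ] at e
          have hcU : ∀ l ∈ U, S.τ (lval φ A₂ l) = 0 := fun l hl => hc l (by rw [e]; simp [hl])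
          have hcV : ∀ l ∈ V, S.τ (lval φ A₂ l) = 0 := fun l hl => hc l (by rw [e]; simp [hl])
          rw [e] at halt
          generalize dd x = z
          induction z with
          | zero => simp
          | tmul a b =>
            rcases hne with hU | hV
            · rw [cutPair_tmul, hR U a hU hcU (chain_congr (by simp)
                (List.IsChain.left_of_append (l₂ := V) (by simpa using halt :
                  ((U ++ [Sum.inl x]) ++ V).IsChain _))), zero_mul]
            · rw [cutPair_tmul, hL V b hV hcV (chain_congr (by simp)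
                (List.IsChain.right_of_append halt)), mul_zero]
          | add z z' h h' => rw [map_add, h, h', add_zero]
    have e1 := hz Z [] rfl
    rw [wval_nil] at e1
    rw [e1]
    symm
    cases l₁ with
    | inl x =>
      have ht : (Sum.inl (j * x) :: l₂ :: W).IsChain
          (fun l l' => Sum.isLeft l ≠ Sum.isLeft l') := chain_congr (by simp [hZ]) halt
      have := hL (l₂ :: W) (j * x) (by simp) (fun l hl => hc l (List.mem_cons_of_mem _ hl)) ht
      simpa [hZ, lval, mul_assoc] using this
    | inr a =>
      exact hL Z j (by simp [hZ]) hc (List.IsChain.cons_cons (by simp) halt)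

/-- **Extension lemma.** -/
theorem cuts_eq (hfree : IsFree S (Set.range φ) (A₂ : Set A))
    (hdd : ∀ x y, dd (x * y) = dd x * (1 ⊗ₜ[ℂ] y) + (x ⊗ₜ[ℂ] 1) * dd y)
    (j : P) (hj : ∀ x, cutPair S φ 1 1 (dd x) = S.τ (φ j * φ x)) :
    ∀ W : List (FLet A₂ P), cuts S φ A₂ dd 1 1 W = S.τ (φ j * wval φ A₂ W) := by
  have hd1 : dd 1 = 0 := by
    have h := hdd 1 1
    rw [mul_one, ← Algebra.TensorProduct.one_def, mul_one, one_mul] at h
    simpa using h.symm
  intro W
  induction hW : W.length using Nat.strong_induction_on generalizing W with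
  | _ m IH =>
  subst hW
  by_cases halt : W.IsChain fun l l' => Sum.isLeft l ≠ Sum.isLeft l'
  · -- centre the letters one by one
    have key : ∀ V U, (∀ l ∈ U, S.τ (lval φ A₂ l) = 0) → (U ++ V).length = W.length →
        (U ++ V).IsChain (fun l l' => Sum.isLeft l ≠ Sum.isLeft l') →
        cuts S φ A₂ dd 1 1 (U ++ V) = S.τ (φ j * wval φ A₂ (U ++ V)) := by
      intro V
      induction V with
      | nil =>
        intro U hU _ hUa
        rw [List.append_nil] at hUa ⊢
        exact cuts_centred hfree hd1 j hj U hU hUa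
      | cons l V ih =>
        intro U hU hlen hUa
        obtain ⟨l', hll, hside, hl'0⟩ : ∃ l',
            ((∃ x, l = Sum.inl x ∧ l' = Sum.inl (x - S.τ (lval φ A₂ l) • 1)) ∨
            (∃ a, l = Sum.inr a ∧ l' = Sum.inr (a - S.τ (lval φ A₂ l) • 1))) ∧
            Sum.isLeft l' = Sum.isLeft l ∧ S.τ (lval φ A₂ l') = 0 := by
          cases l with
          | inl x =>
            refine ⟨_, Or.inl ⟨x, rfl, rfl⟩, rfl, ?_⟩
            simp only [lval, map_sub, map_smul, map_one]
            exact S.τ_center _
          | inr a =>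
            refine ⟨_, Or.inr ⟨a, rfl, rfl⟩, rfl, ?_⟩
            simp only [lval]
            push_cast
            exact S.τ_center _
        obtain ⟨e1, e2⟩ := cuts_split (S := S) (φ := φ) hd1 _ U V l l' hll
        have hmain := ih (U ++ [l'])
          (by simp only [List.mem_append, List.mem_singleton]; rintro z (hz | rfl)
              exacts [hU z hz, hl'0])
          (by simpa using hlen) (chain_congr (by simp [hside]) hUa)
        rw [List.append_assoc, List.singleton_append] at hmain
        have hshort := IH _ (by rw [← hlen]; simp) (U ++ V) rfl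
        rw [e1, e2, hmain, hshort, mul_add, S.τ_add, mul_smul_comm, S.τ_smul]
    simpa using key W [] (by simp) rfl halt
  · obtain ⟨U, V, x, y, rfl, hxy⟩ :
        ∃ U V x y, W = U ++ x :: y :: V ∧ Sum.isLeft x = Sum.isLeft y := by
      clear IH
      induction W with
      | nil => exact absurd List.IsChain.nil halt
      | cons l W ih =>
        cases W with
        | nil => exact absurd (List.IsChain.singleton l) halt
        | cons l' W =>
          by_cases he : Sum.isLeft l = Sum.isLeft l'
          · exact ⟨[], W, l, l', rfl, he⟩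
          · obtain ⟨U, V, x, y, e, hxy⟩ := ih fun hc => halt (List.IsChain.cons_cons he hc)
            exact ⟨l :: U, V, x, y, by rw [e]; rfl, hxy⟩
    have step : ∀ z : FLet A₂ P, lval φ A₂ z = lval φ A₂ x * lval φ A₂ y →
        (∀ pre post, cuts S φ A₂ dd pre post [x, y] = cuts S φ A₂ dd pre post [z]) →
        cuts S φ A₂ dd 1 1 (U ++ x :: y :: V) = S.τ (φ j * wval φ A₂ (U ++ x :: y :: V)) := by
      intro z hz hc
      have hw : wval φ A₂ [x, y] = wval φ A₂ [z] := by simp [hz]
      have e1 : cuts S φ A₂ dd 1 1 (U ++ x :: y :: V) = cuts S φ A₂ dd 1 1 (U ++ z :: V) := by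
        rw [show x :: y :: V = [x, y] ++ V from rfl, show z :: V = [z] ++ V from rfl, cuts_append,
          cuts_append (U := U) (V := [z] ++ V), cuts_append (U := [x, y]), cuts_append (U := [z]),
          wval_append φ A₂ [x, y], wval_append φ A₂ [z], hw, hc]
      have e2 : wval φ A₂ (U ++ x :: y :: V) = wval φ A₂ (U ++ z :: V) := by
        simp [wval_append, hz, mul_assoc]
      rw [e1, e2]
      exact IH _ (by simp) _ rfl
    cases x with
    | inl x =>
      cases y with
      | inl y =>
        refine step (Sum.inl (x * y)) (map_mul φ x y) fun pre post => ?_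
        simp only [cuts, wval_cons, wval_nil, mul_one, lval, add_zero, one_mul, hdd, map_add]
        congr 1
        · generalize dd x = z
          induction z with
          | zero => simp
          | tmul a b => simp [mul_assoc]
          | add z z' h h' => rw [add_mul, map_add, map_add, h, h']
        · generalize dd y = z
          induction z with
          | zero => simp
          | tmul a b => simp [mul_assoc]
          | add z z' h h' => rw [mul_add, map_add, map_add, h, h']
      | inr y => simp at hxy
    | inr x =>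
      cases y with
      | inl y => simp at hxy
      | inr y => exact step (Sum.inr (x * y)) rfl fun pre post => by simp [cuts]

end Extension

end VP086
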