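import Vale.Agent.P086.Defs
import Vale.Agent.P086.Free
import Vale.Agent.P086.Word.Group

/-!
P086: the trace kills the derivation at the original state.

Only two splitting formulas are used: the one of the semicircular element, and the one of the
group algebra of the carriers with respect to the derivation moving the first carrier. Both pass
to the free product with the other letters by the extension lemma.
-/

open scoped TensorProduct

namespace VP086.Invar

open Word (G2 cross)

section Maps

variable {M N : Type} [Monoid M] [Monoid N]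

theorem map_blk (f : M →* N) (x y : M) (i k : ℕ) : f (blk x y i k) = blk (f x) (f y) i k := by
  induction k generalizing i with
  | zero => simp [blk]
  | succ k ih => simp [blk, ih]

theorem blk_mem (s : Submonoid M) {x y : M} (hx : x ∈ s) (hy : y ∈ s) (i k : ℕ) :
    blk x y i k ∈ s := by
  induction k generalizing i with
  | zero => exact one_mem s
  | succ k ih => exact mul_mem (mul_mem (pow_mem hy _) hx) (ih _)

theorem blk_add (x y : M) (i j k : ℕ) :
    blk x y i (j + k) = blk x y i j * blk x y (i + j) k := by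
  induction j generalizing i with
  | zero => simp [blk]
  | succ j ih =>
    rw [Nat.succ_add, blk, blk, ih, show i + (j + 1) = i + 1 + j by omega, ← mul_assoc]

theorem blk_word (k : ℕ) : blk Word.a Word.b 0 k = Word.W k := by
  induction k with
  | zero => rfl
  | succ k ih => rw [blk_add, ih]; simp [blk, Word.W, mul_assoc]

theorem pre_word (j : ℕ) : pre Word.a Word.b j = Word.P j := by rw [pre, blk_word, Word.P]

theorem suf_word {L j : ℕ} (hj : j < L) : suf Word.a Word.b L j = Word.Q L j := by
  rw [Word.Q, eq_inv_mul_iff_mul_eq, ← pre_word, ← blk_word]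
  conv_rhs => rw [show L = j + ((L - j - 1) + 1) by omega, blk_add, zero_add]
  simp [pre, suf, blk, mul_assoc]

end Maps

variable {A : Type} [CStarAlgebra A] {H : Type} [NormedAddCommGroup H] [InnerProductSpace ℂ H]
  {S : System A H}

/-- The carriers as a homomorphism into `A`. -/
noncomputable def car (S : System A H) : G2 →* A :=
  (unitary A).subtype.comp (wordHom ![S.u1, S.u2])

theorem car_apply (g : G2) : car S g = (wordHom ![S.u1, S.u2] g : A) := rfl

theorem car_a : car S Word.a = (S.u1 : A) := by simp [car, wordHom, Word.a]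

theorem car_b : car S Word.b = (S.u2 : A) := by simp [car, wordHom, Word.b]

theorem car_inv (g : G2) : car S g⁻¹ = star (car S g) := by
  rw [car_apply, map_inv, car_apply]
  rfl

theorem tau_car (g : G2) : S.τ (car S g) = if g = 1 then 1 else 0 := S.tau_E g

theorem tau_comm' (x y : A) : S.τ (x * y) = S.τ (y * x) := S.tau_comm x y

/-- Whether a letter is `q`. -/
def isQ : Atom S → Bool
  | .q => true
  | _ => false

/-- The number of letters `q`. -/
def qnum (W : List (Atom S)) : ℕ := W.countP isQ

theorem qnum_append (U V : List (Atom S)) : qnum (U ++ V) = qnum U + qnum V := by simp [qnum]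

theorem qnum_adjW (W : List (Atom S)) : qnum (adjW W) = qnum W := by
  rw [qnum, qnum, adjW, List.countP_reverse, List.countP_map]
  congr 1
  funext l
  cases l <;> rfl

theorem adjW_append (U V : List (Atom S)) : adjW (U ++ V) = adjW V ++ adjW U := by simp [adjW]

/-- The evaluation as a homomorphism. -/
def evHom (S : System A H) : FreeMonoid (Atom S) →* A := FreeMonoid.lift (Atom.val (base S))

theorem ev_eq_evHom (x : FreeMonoid (Atom S)) : ev (base S) x.toList = evHom S x := by
  rw [evHom, FreeMonoid.lift_apply]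
  rfl

theorem ev_blk (i k : ℕ) :
    evHom S (blk (FreeMonoid.of Atom.u) (FreeMonoid.of Atom.v) i k) =
      car S (blk Word.a Word.b i k) := by
  rw [map_blk, map_blk, car_a, car_b]
  rfl

theorem ev_aWrd (L : ℕ) : ev (base S) (aWrd S L) = car S (Word.W L) := by
  rw [aWrd, ev_eq_evHom, wrd, ev_blk, blk_word]

theorem ev_aPre (j : ℕ) : ev (base S) (aPre S j) = car S (Word.P j) := by
  rw [aPre, ev_eq_evHom, pre, map_mul, map_pow, ev_blk, ← pre_word, pre, map_mul, map_pow, car_b]
  rfl

theorem ev_aSuf {L j : ℕ} (hj : j < L) : ev (base S) (aSuf S L j) = car S (Word.Q L j) := by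
  rw [aSuf, ev_eq_evHom, suf, map_mul, ev_blk, ← suf_word hj, suf, map_mul, car_a]
  rfl

/-- The monoid of words without `q`. -/
def noQ (S : System A H) : Submonoid (FreeMonoid (Atom S)) where
  carrier := {x | qnum x.toList = 0}
  one_mem' := rfl
  mul_mem' {x y} hx hy := by
    show qnum (x * y).toList = 0
    rw [FreeMonoid.toList_mul, qnum_append, show qnum x.toList = 0 from hx,
      show qnum y.toList = 0 from hy]

theorem qnum_aWrd (L : ℕ) : qnum (aWrd S L) = 0 :=
  blk_mem (noQ S) (x := FreeMonoid.of Atom.u) (y := FreeMonoid.of Atom.v) rfl rfl 0 L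

theorem qnum_aPre (j : ℕ) : qnum (aPre S j) = 0 :=
  mul_mem (blk_mem (noQ S) (x := FreeMonoid.of Atom.u) (y := FreeMonoid.of Atom.v) rfl rfl 0 j)
    (pow_mem (S := noQ S) rfl (j + 1))

theorem qnum_aSuf (L j : ℕ) : qnum (aSuf S L j) = 0 :=
  mul_mem (show FreeMonoid.of Atom.u ∈ noQ S from rfl)
    (blk_mem (noQ S) (x := FreeMonoid.of Atom.u) (y := FreeMonoid.of Atom.v) rfl rfl _ _)

/-! ### The splitting at the letters `q` -/

/-- `1` at the letter `q`, `0` elsewhere. -/
def qind (l : Atom S) : ℂ := if isQ l then 1 else 0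

/-- The sum over the splits of a word at its letters `q`. -/
noncomputable def Qs (S : System A H) : A → A → List (Atom S) → ℂ
  | _, _, [] => 0
  | p, r, l :: W =>
    qind l * (S.τ p * S.τ (ev (base S) W * r)) + Qs S (p * l.val (base S)) r W

theorem Qs_append (p r : A) (U V : List (Atom S)) :
    Qs S p r (U ++ V) =
      Qs S p (ev (base S) V * r) U + Qs S (p * ev (base S) U) r V := by
  induction U generalizing p with
  | nil => simp [Qs]
  | cons l U ih =>
    simp only [List.cons_append, Qs, ih, ev_append, ev_cons, mul_assoc]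
    ring

theorem Qs_lin (c : ℂ) (p p' r : A) (W : List (Atom S)) :
    Qs S (c • p + p') r W = c * Qs S p r W + Qs S p' r W := by
  induction W generalizing p p' with
  | nil => simp [Qs]
  | cons l W ih =>
    simp only [Qs, add_mul, smul_mul_assoc, ih, S.τ_add, S.τ_smul]
    ring

theorem Qs_add (p p' r : A) (W : List (Atom S)) :
    Qs S (p + p') r W = Qs S p r W + Qs S p' r W := by
  simpa using Qs_lin 1 p p' r W

theorem Qs_zero (r : A) (W : List (Atom S)) : Qs S 0 r W = 0 := by
  simpa using Qs_lin 1 0 0 r W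

theorem Qs_noq (p r : A) {W : List (Atom S)} (h : qnum W = 0) : Qs S p r W = 0 := by
  induction W generalizing p with
  | nil => rfl
  | cons l W ih =>
    obtain ⟨hl, hW⟩ : isQ l = false ∧ qnum W = 0 := by
      cases hb : isQ l <;> simp_all [qnum]
    simp [Qs, qind, hl, ih _ hW]

theorem Qs_three (p r : A) {U V : List (Atom S)} (hU : qnum U = 0) (hV : qnum V = 0)
    (c d : Const S) :
    Qs S p r (U ++ [Atom.d c, Atom.q, Atom.d d] ++ V) =
      S.τ (p * ev (base S) U * c.1) * S.τ (d.1 * ev (base S) V * r) := by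
  rw [Qs_append, Qs_append, Qs_noq _ _ hU, Qs_noq _ _ hV]
  simp [Qs, qind, isQ, Atom.val, mul_assoc]

/-- The sum over the splits, extended to combinations. -/
noncomputable def QsC (S : System A H) (p r : A) (l : Comb S) : ℂ :=
  (l.map fun z => z.1 * Qs S p r z.2).sum

@[simp] theorem QsC_nil (p r : A) : QsC S p r ([] : Comb S) = 0 := rfl

@[simp] theorem QsC_cons (p r : A) (z : ℂ × List (Atom S)) (l : Comb S) :
    QsC S p r (z :: l) = z.1 * Qs S p r z.2 + QsC S p r l := by simp [QsC]

theorem QsC_append (p r : A) (l l' : Comb S) :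
    QsC S p r (l ++ l') = QsC S p r l + QsC S p r l' := by simp [QsC]

theorem QsC_flatMap {α : Type} (p r : A) (f : α → Comb S) (l : List α) :
    QsC S p r (l.flatMap f) = (l.map fun x => QsC S p r (f x)).sum := by
  induction l with
  | nil => rfl
  | cons x l ih => simp [QsC_append, ih]

theorem QsC_map_right (p r : A) (l : Comb S) (W : List (Atom S)) :
    QsC S p r (l.map fun z => (z.1, z.2 ++ W)) =
      QsC S p (ev (base S) W * r) l + Qs S (p * tot (base S) l) r W := by
  induction l with
  | nil => simp [Qs_zero]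
  | cons z l ih =>
    rw [List.map_cons, QsC_cons, ih, Qs_append, QsC_cons, tot_cons, mul_add p, mul_smul_comm,
      Qs_lin]
    ring

theorem QsC_map_left (p r : A) (x : Atom S) (l : Comb S) :
    QsC S p r (l.map fun z => (z.1, x :: z.2)) =
      qind x * (S.τ p * S.τ (tot (base S) l * r)) + QsC S (p * x.val (base S)) r l := by
  induction l with
  | nil => simp [S.τ_zero]
  | cons z l ih =>
    rw [List.map_cons, QsC_cons, ih, QsC_cons, tot_cons, add_mul, smul_mul_assoc, S.τ_add,
      S.τ_smul, Qs]
    ring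

/-- The algebra free from `q`. -/
noncomputable def algQ (S : System A H) : Subalgebra ℂ A :=
  Algebra.adjoin ℂ ((S.D : Set A) ∪ Set.range fun h => (wordHom ![S.u1, S.u2] h : A))

theorem val_mem_algQ : ∀ l : Atom S, isQ l = false → l.val (base S) ∈ algQ S
  | .d c, _ => Algebra.subset_adjoin (Or.inl c.2.1)
  | .u, _ => Algebra.subset_adjoin (Or.inr ⟨Word.a, car_a⟩)
  | .ui, _ => Algebra.subset_adjoin (Or.inr ⟨Word.a⁻¹, by
      show car S Word.a⁻¹ = _; rw [car_inv, car_a]; rfl⟩)
  | .v, _ => Algebra.subset_adjoin (Or.inr ⟨Word.b, car_b⟩)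
  | .vi, _ => Algebra.subset_adjoin (Or.inr ⟨Word.b⁻¹, by
      show car S Word.b⁻¹ = _; rw [car_inv, car_b]; rfl⟩)
  | .q, h => absurd h (by simp [isQ])

/-- The translation of the letters for the semicircular splitting. -/
noncomputable def toQ : Atom S → FLet (algQ S) (Polynomial ℂ)
  | .q => Sum.inl Polynomial.X
  | .d c => Sum.inr ⟨_, val_mem_algQ (.d c) rfl⟩
  | .u => Sum.inr ⟨_, val_mem_algQ .u rfl⟩
  | .ui => Sum.inr ⟨_, val_mem_algQ .ui rfl⟩
  | .v => Sum.inr ⟨_, val_mem_algQ .v rfl⟩
  | .vi => Sum.inr ⟨_, val_mem_algQ .vi rfl⟩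

/-- The derivation of polynomials. -/
noncomputable def dQ : Polynomial ℂ →ₗ[ℂ] Polynomial ℂ ⊗[ℂ] Polynomial ℂ :=
  (Polynomial.basisMonomials ℂ).constr ℂ fun n =>
    ∑ i ∈ Finset.range n, (Polynomial.X ^ i) ⊗ₜ[ℂ] (Polynomial.X ^ (n - 1 - i) : Polynomial ℂ)

theorem dQ_pow (n : ℕ) : dQ (Polynomial.X ^ n) =
    ∑ i ∈ Finset.range n, (Polynomial.X ^ i) ⊗ₜ[ℂ] (Polynomial.X ^ (n - 1 - i) : Polynomial ℂ) := by
  rw [show (Polynomial.X ^ n : Polynomial ℂ) = Polynomial.basisMonomials ℂ n by
    simp [Polynomial.X_pow_eq_monomial]]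
  exact Module.Basis.constr_basis _ _ _ _

theorem dQ_mul (x y : Polynomial ℂ) :
    dQ (x * y) = dQ x * (1 ⊗ₜ[ℂ] y) + (x ⊗ₜ[ℂ] 1) * dQ y := by
  induction x using Polynomial.induction_on' with
  | add x x' hx hx' =>
    rw [add_mul, map_add, hx, hx', map_add, TensorProduct.add_tmul, add_mul, add_mul]
    abel
  | monomial m c =>
    induction y using Polynomial.induction_on' with
    | add y y' hy hy' =>
      rw [mul_add, map_add, hy, hy', map_add, TensorProduct.tmul_add, mul_add, mul_add]
      abel
    | monomial n d =>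
      simp only [← Polynomial.C_mul_X_pow_eq_monomial, ← Polynomial.smul_eq_C_mul]
      rw [smul_mul_smul_comm, ← pow_add, map_smul, map_smul, map_smul, dQ_pow, dQ_pow, dQ_pow,
        TensorProduct.tmul_smul, ← TensorProduct.smul_tmul', smul_mul_smul_comm,
        smul_mul_smul_comm, mul_comm c d, ← smul_add]
      congr 1
      rw [Finset.sum_range_add, Finset.sum_mul, Finset.mul_sum]
      congr 1
      · refine Finset.sum_congr rfl fun i hi => ?_
        rw [Algebra.TensorProduct.tmul_mul_tmul, mul_one, ← pow_add]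
        congr 2
        have := Finset.mem_range.1 hi
        omega
      · refine Finset.sum_congr rfl fun i hi => ?_
        rw [Algebra.TensorProduct.tmul_mul_tmul, one_mul, ← pow_add]
        congr 2
        omega

theorem cuts_toQ (p r : A) (W : List (Atom S)) :
    cuts S.toStd (Polynomial.aeval S.q) (algQ S) dQ p r (W.map toQ) = Qs S p r W ∧
      wval (Polynomial.aeval S.q) (algQ S) (W.map toQ) = ev (base S) W := by
  induction W generalizing p with
  | nil => exact ⟨rfl, rfl⟩
  | cons l W ih =>
    have h2 := (ih p).2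
    have hX : dQ Polynomial.X = 1 ⊗ₜ[ℂ] 1 := by simpa using dQ_pow 1
    cases l <;>
      exact ⟨by simp [toQ, cuts, Qs, qind, isQ, base, Atom.val, hX, h2, (ih _).1],
        by simp [toQ, lval, base, Atom.val, h2]⟩

/-- The splitting formula of the semicircular element. -/
theorem tau_q_ev (W : List (Atom S)) : S.τ (S.q * ev (base S) W) = Qs S 1 1 W := by
  have hfree : IsFree S.toStd (Set.range (Polynomial.aeval (R := ℂ) S.q)) (algQ S : Set A) := by
    intro l hne hl
    refine S.free_q l hne fun p hp => ⟨(hl p hp).1, ?_⟩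
    have := (hl p hp).2
    rwa [Algebra.adjoin_singleton_eq_range_aeval]
  have h := cuts_eq (S := S.toStd) hfree dQ_mul Polynomial.X (fun x => by
    induction x using Polynomial.induction_on' with
    | add x y hx hy => rw [map_add, map_add, hx, hy, map_add, mul_add, Std.τ_add]
    | monomial n c =>
      simp only [← Polynomial.C_mul_X_pow_eq_monomial, ← Polynomial.smul_eq_C_mul, map_smul,
        dQ_pow, map_sum, cutPair_tmul, one_mul, mul_one, map_pow, Polynomial.aeval_X,
        mul_smul_comm, Std.τ_smul, ← pow_succ', smul_eq_mul, S.semicircle]) (W.map toQ)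
  rw [(cuts_toQ 1 1 W).1, (cuts_toQ 1 1 W).2, Polynomial.aeval_X] at h
  exact h.symm

theorem tau_q_tot (l : Comb S) : S.τ (S.q * tot (base S) l) = QsC S 1 1 l := by
  induction l with
  | nil => simp [S.τ_zero]
  | cons z l ih =>
    rw [tot_cons, mul_add, mul_smul_comm, S.τ_add, S.τ_smul, tau_q_ev, ih, QsC_cons]

/-! ### The splitting at the first carrier -/

/-- The group algebra of the carriers. -/
abbrev GA : Type := MonoidAlgebra ℂ G2

/-- A group element as an element of the group algebra. -/
noncomputable def sg : G2 →* GA := MonoidAlgebra.of ℂ G2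

theorem sg_induction {motive : GA → Prop} (hs : ∀ g, motive (sg g))
    (ha : ∀ x y, motive x → motive y → motive (x + y))
    (hc : ∀ (c : ℂ) x, motive x → motive (c • x)) (x : GA) : motive x :=
  MonoidAlgebra.induction_on x hs ha hc

/-- The tensor inserted by the derivation. -/
noncomputable def ins (L : ℕ) : GA ⊗[ℂ] GA :=
  kap L • ∑ j ∈ Finset.range L,
    (sg (Word.P j)⁻¹ ⊗ₜ[ℂ] sg (Word.Q L j)⁻¹ - sg (Word.Q L j) ⊗ₜ[ℂ] sg (Word.P j))

/-- The derivative of a group element. -/
noncomputable def dgrp (L : ℕ) (g : G2) : GA ⊗[ℂ] GA :=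
  (cross g).sum fun v c => (c : ℂ) • ((sg v ⊗ₜ[ℂ] 1) * ins L * (1 ⊗ₜ[ℂ] sg (v⁻¹ * g)))

/-- The derivation of the group algebra. -/
noncomputable def dG (L : ℕ) : GA →ₗ[ℂ] GA ⊗[ℂ] GA :=
  (MonoidAlgebra.basis G2 ℂ).constr ℂ (dgrp L)

theorem dG_sg (L : ℕ) (g : G2) : dG L (sg g) = dgrp L g := by
  rw [show sg g = MonoidAlgebra.basis G2 ℂ g by simp [sg]]
  exact Module.Basis.constr_basis _ _ _ _

theorem dgrp_mul (L : ℕ) (g h : G2) :
    dgrp L (g * h) = dgrp L g * (1 ⊗ₜ[ℂ] sg h) + (sg g ⊗ₜ[ℂ] 1) * dgrp L h := by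
  rw [dgrp, Word.cross_mul, Finsupp.sum_add_index' (fun v => by simp)
    (fun v c c' => by rw [Int.cast_add, add_smul])]
  congr 1
  · rw [dgrp, Finsupp.sum, Finsupp.sum, Finset.sum_mul]
    refine Finset.sum_congr rfl fun v _ => ?_
    rw [smul_mul_assoc, mul_assoc _ _ (1 ⊗ₜ[ℂ] sg h), Algebra.TensorProduct.tmul_mul_tmul, one_mul,
      ← map_mul, mul_assoc v⁻¹ g h]
  · show (Finsupp.mapDomain (fun v => g * v) (cross h)).sum _ = _
    rw [Finsupp.sum_mapDomain_index (fun v => by simp)
      (fun v c c' => by rw [Int.cast_add, add_smul]), dgrp, Finsupp.sum, Finsupp.sum, Finset.mul_sum]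
    refine Finset.sum_congr rfl fun v _ => ?_
    rw [mul_smul_comm, mul_assoc (sg (g * v) ⊗ₜ[ℂ] (1 : GA)), mul_assoc (sg v ⊗ₜ[ℂ] (1 : GA)),
      ← mul_assoc (sg g ⊗ₜ[ℂ] (1 : GA)), Algebra.TensorProduct.tmul_mul_tmul, one_mul, ← map_mul,
      show (g * v)⁻¹ * (g * h) = v⁻¹ * h by group]

theorem dG_mul (L : ℕ) (x y : GA) : dG L (x * y) = dG L x * (1 ⊗ₜ[ℂ] y) + (x ⊗ₜ[ℂ] 1) * dG L y := by
  induction x using sg_induction with
  | hs g =>
    induction y using sg_induction with
    | hs h =>
      rw [← map_mul sg, dG_sg, dG_sg, dG_sg, dgrp_mul]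
    | ha y y' hy hy' =>
      rw [mul_add, map_add, hy, hy', map_add, TensorProduct.tmul_add, mul_add, mul_add]
      abel
    | hc c y hy =>
      rw [mul_smul_comm, map_smul, hy, map_smul, TensorProduct.tmul_smul, mul_smul_comm,
        mul_smul_comm, smul_add]
  | ha x x' hx hx' =>
    rw [add_mul, map_add, hx, hx', map_add, TensorProduct.add_tmul, add_mul, add_mul]
    abel
  | hc c x hx =>
    rw [smul_mul_assoc, map_smul, hx, map_smul, ← TensorProduct.smul_tmul', smul_mul_assoc,
      smul_mul_assoc, smul_add]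

/-- The representation of the group algebra. -/
noncomputable def repG (S : System A H) : GA →ₐ[ℂ] A := MonoidAlgebra.lift ℂ A G2 (car S)

@[simp] theorem repG_sg (g : G2) : repG S (sg g) = car S g := MonoidAlgebra.lift_of _ _

/-- The conjugate element of the carriers. -/
noncomputable def jG (L : ℕ) : GA := lam • (sg (Word.W L) + sg (Word.W L)⁻¹)

theorem cutPair_ins (L : ℕ) (p r : A) :
    cutPair S.toStd (repG S) p r (ins L) = kap L * ∑ j ∈ Finset.range L,
      (S.τ (p * car S (Word.P j)⁻¹) * S.τ (car S (Word.Q L j)⁻¹ * r) -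
        S.τ (p * car S (Word.Q L j)) * S.τ (car S (Word.P j) * r)) := by
  simp only [ins, map_smul, map_sum, map_sub, cutPair_tmul, repG_sg, smul_eq_mul]

theorem cutPair_shift (p r : A) (v w : G2) (z : GA ⊗[ℂ] GA) :
    cutPair S.toStd (repG S) p r ((sg v ⊗ₜ[ℂ] 1) * z * (1 ⊗ₜ[ℂ] sg w)) =
      cutPair S.toStd (repG S) (p * car S v) (car S w * r) z := by
  induction z with
  | zero => simp
  | tmul x y => simp [mul_assoc]
  | add z z' h h' => rw [mul_add, add_mul, map_add, map_add, h, h']

theorem dG_pair (L : ℕ) (hL : 0 < L) (x : GA) :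
    cutPair S.toStd (repG S) 1 1 (dG L x) = S.τ (repG S (jG L) * repG S x) := by
  induction x using sg_induction with
  | ha x y hx hy => rw [map_add, map_add, hx, hy, map_add, mul_add, Std.τ_add]
  | hc c x hx =>
    rw [map_smul, map_smul, hx, map_smul, mul_smul_comm, Std.τ_smul, smul_eq_mul]
  | hs g =>
    have key : ∀ v P Q : G2, S.τ (car S (v * P⁻¹)) * S.τ (car S (Q⁻¹ * (v⁻¹ * g))) =
        if v = P then (if g = P * Q then 1 else 0) else 0 := by
      intro v P Q
      rw [tau_car, tau_car]
      by_cases hv : v = P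
      · subst hv
        rw [if_pos (mul_inv_cancel v), if_pos rfl, one_mul]
        refine if_congr ?_ rfl rfl
        rw [← mul_assoc, ← mul_inv_rev, inv_mul_eq_one, eq_comm]
      · rw [if_neg hv, if_neg (fun h => hv (mul_inv_eq_one.1 h)), zero_mul]
    have hterm : ∀ v, cutPair S.toStd (repG S) 1 1
        ((sg v ⊗ₜ[ℂ] 1) * ins L * (1 ⊗ₜ[ℂ] sg (v⁻¹ * g))) =
        kap L * ∑ j ∈ Finset.range L,
          ((if v = Word.P j then (if g = Word.W L then 1 else 0) else 0) -
            (if v = (Word.Q L j)⁻¹ then (if g = (Word.W L)⁻¹ then 1 else 0) else 0)) := by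
      intro v
      rw [cutPair_shift, cutPair_ins, one_mul, mul_one]
      congr 1
      refine Finset.sum_congr rfl fun j _ => ?_
      have k1 := key v (Word.P j) (Word.Q L j)
      have k2 := key v (Word.Q L j)⁻¹ (Word.P j)⁻¹
      rw [inv_inv, inv_inv, ← mul_inv_rev, Word.P_mul_Q] at k2
      rw [Word.P_mul_Q] at k1
      simp only [← map_mul]
      exact congrArg₂ (· - ·) k1 k2
    have hj : ∀ j, ((cross g).sum fun v c => (c : ℂ) *
        ((if v = Word.P j then (if g = Word.W L then 1 else 0) else 0) -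
          (if v = (Word.Q L j)⁻¹ then (if g = (Word.W L)⁻¹ then 1 else 0) else 0))) =
        ((((if g = Word.P j * Word.Q L j then cross g (Word.P j) else 0) -
          (if g = (Word.P j * Word.Q L j)⁻¹ then cross g (Word.Q L j)⁻¹ else 0) : ℤ)) : ℂ) := by
      intro j
      rw [Word.P_mul_Q, Finsupp.sum]
      simp only [mul_sub, mul_ite, mul_one, mul_zero]
      rw [Finset.sum_sub_distrib, Finset.sum_ite_eq', Finset.sum_ite_eq']
      have hite : ∀ (C : Prop) [Decidable C] (v : G2),
          (if v ∈ (cross g).support then (if C then (cross g v : ℂ) else 0) else 0) =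
            (((if C then cross g v else 0 : ℤ)) : ℂ) := by
        intro C _ v
        by_cases hC : C <;> by_cases hv : cross g v = 0 <;> simp [hC, hv]
      rw [hite, hite, Int.cast_sub]
    have hk : kap L * (L : ℂ) = lam := by
      rw [kap, lam, ← Complex.ofReal_natCast, ← Complex.ofReal_mul]
      congr 1
      field_simp
    have hsum : cutPair S.toStd (repG S) 1 1 (dG L (sg g)) = kap L * ∑ j ∈ Finset.range L,
        ((((if g = Word.P j * Word.Q L j then cross g (Word.P j) else 0) -
          (if g = (Word.P j * Word.Q L j)⁻¹ then cross g (Word.Q L j)⁻¹ else 0) : ℤ)) : ℂ) := by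
      rw [dG_sg, dgrp, map_finsuppSum]
      simp only [map_smul, smul_eq_mul, hterm, ← hj, Finsupp.sum, Finset.mul_sum]
      rw [Finset.sum_comm]
      exact Finset.sum_congr rfl fun j _ => Finset.sum_congr rfl fun v _ => mul_left_comm _ _ _
    rw [hsum, ← Int.cast_sum, Word.crossing_identity, Int.cast_mul, Int.cast_natCast, ← mul_assoc,
      hk, jG, map_smul, smul_mul_assoc, Std.τ_smul, map_add, add_mul, Std.τ_add, repG_sg, repG_sg,
      repG_sg, ← map_mul, ← map_mul, tau_car, tau_car]
    simp only [mul_eq_one_iff_inv_eq, inv_inv, eq_comm (a := g)]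
    push_cast
    ring

/-- The algebra free from the carriers. -/
noncomputable def algE (S : System A H) : Subalgebra ℂ A :=
  Algebra.adjoin ℂ ((S.D : Set A) ∪ {S.q})

theorem free_repG : IsFree S.toStd (Set.range (repG S)) (algE S : Set A) := by
  intro l hne hl
  refine S.free_E l hne fun p hp => ⟨(hl p hp).1, ?_⟩
  have h := (hl p hp).2
  cases hb : p.1
  · simpa [hb, algE] using h
  · rw [hb] at h
    obtain ⟨x, hx⟩ := h
    show p.2 ∈ Algebra.adjoin ℂ _
    rw [← hx]
    clear hx
    induction x using sg_induction with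
    | hs g => exact Algebra.subset_adjoin ⟨g, (repG_sg g).symm⟩
    | ha x y hx hy => rw [map_add]; exact add_mem hx hy
    | hc c x hx => rw [map_smul]; exact Subalgebra.smul_mem _ hx c

/-- The translation of the letters for the splitting at the first carrier. -/
noncomputable def toG : Atom S → FLet (algE S) GA
  | .d c => Sum.inr ⟨c.1, Algebra.subset_adjoin (Or.inl c.2.1)⟩
  | .u => Sum.inl (sg Word.a)
  | .ui => Sum.inl (sg Word.a⁻¹)
  | .v => Sum.inl (sg Word.b)
  | .vi => Sum.inl (sg Word.b⁻¹)
  | .q => Sum.inr ⟨S.q, Algebra.subset_adjoin (Or.inr rfl)⟩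

theorem wval_toG (W : List (Atom S)) :
    wval (repG S) (algE S) (W.map toG) = ev (base S) W := by
  induction W with
  | nil => rfl
  | cons l W ih =>
    cases l <;> simp [toG, lval, base, Atom.val, ih, car_a, car_b, car_inv]

/-- The sum over the cuts at the first carrier. -/
noncomputable def cutsG (S : System A H) (L : ℕ) (p r : A) (W : List (Atom S)) : ℂ :=
  cuts S.toStd (repG S) (algE S) (dG L) p r (W.map toG)

/-- The cut at one letter. -/
noncomputable def cutG (S : System A H) (L : ℕ) (p r : A) : Atom S → ℂ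
  | .u => cutPair S.toStd (repG S) p r (dG L (sg Word.a))
  | .ui => cutPair S.toStd (repG S) p r (dG L (sg Word.a⁻¹))
  | _ => 0

theorem cutsG_cons (L : ℕ) (p r : A) (l : Atom S) (W : List (Atom S)) :
    cutsG S L p r (l :: W) =
      cutG S L p (ev (base S) W * r) l + cutsG S L (p * l.val (base S)) r W := by
  have hb : dG L (sg Word.b) = 0 := by rw [dG_sg, dgrp, Word.cross_b, Finsupp.sum_zero_index]
  have hb' : dG L (sg Word.b⁻¹) = 0 := by
    rw [dG_sg, dgrp, Word.cross_inv, Word.cross_b, map_zero, neg_zero, Finsupp.sum_zero_index]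
  cases l <;>
    simp [cutsG, cutG, cuts, toG, base, Atom.val, wval_toG, hb, hb', car_a, car_b, car_inv]

/-- The splitting formula of the carriers, between two constants. -/
theorem cutsG_eq {L : ℕ} (hL : 0 < L) (c d : Const S) (W : List (Atom S)) :
    cutsG S L c.1 d.1 W = S.τ (repG S (jG L) * (c.1 * ev (base S) W * d.1)) := by
  have h := cuts_eq (S := S.toStd) free_repG (dG_mul L) (jG L) (dG_pair L hL)
    ((Atom.d c :: (W ++ [Atom.d d])).map toG)
  rw [wval_toG] at h
  simp only [List.map_cons, List.map_append, List.map_nil, toG, cuts, one_mul, cuts_append,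
    wval_cons, wval_nil, lval, mul_one, add_zero] at h
  rw [cutsG, h]
  simp [ev_append, Atom.val, mul_assoc]

/-! ### The pieces -/

variable {K L : ℕ} (P : Arcs S K) (a b : Fin K)

theorem pairs_mem {z : Const S × Const S} (hz : z ∈ P.pairs a b) :
    (∃ i, z.1 = P.p i) ∧ ∃ i, z.2 = P.p i := by
  unfold Arcs.pairs at hz
  split_ifs at hz
  · rw [List.mem_singleton] at hz; subst hz; exact ⟨⟨a, rfl⟩, ⟨a, rfl⟩⟩
  · simp only [List.mem_cons, List.not_mem_nil, or_false] at hz
    rcases hz with rfl | rfl
    exacts [⟨⟨a, rfl⟩, ⟨b, rfl⟩⟩, ⟨⟨b, rfl⟩, ⟨a, rfl⟩⟩]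

theorem pairs_swap (F : Const S → Const S → ℂ) :
    ((P.pairs a b).map fun z => F z.2 z.1).sum = ((P.pairs a b).map fun z => F z.1 z.2).sum := by
  unfold Arcs.pairs
  split_ifs <;> simp [add_comm]

theorem adj_d {z : Const S} {i : Fin K} (h : z = P.p i) :
    adjW [Atom.d z] = [Atom.d z] := by
  subst h
  simp [adjW, Atom.adj, P.star_p i]

variable {P a b}

theorem xC_adj_term {z : Const S × Const S} (hz : z ∈ P.pairs a b) (U V : List (Atom S)) :
    adjW (U ++ [Atom.d z.1, Atom.q, Atom.d z.2] ++ V) =
      adjW V ++ [Atom.d z.2, Atom.q, Atom.d z.1] ++ adjW U := by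
  obtain ⟨⟨i, hi⟩, ⟨k, hk⟩⟩ := pairs_mem P a b hz
  rw [adjW_append, adjW_append, List.append_assoc,
    show [Atom.d z.1, Atom.q, Atom.d z.2] = [Atom.d z.1] ++ [Atom.q] ++ [Atom.d z.2] from rfl,
    adjW_append, adjW_append, adj_d P hi, adj_d P hk]
  rfl

theorem adjW_adjW (W : List (Atom S)) : adjW (adjW W) = W := by
  have h : (Atom.adj ∘ Atom.adj : Atom S → Atom S) = id := by
    funext l
    cases l <;> simp [Atom.adj]
  simp [adjW, List.map_reverse, List.map_map, h]

theorem sum_range_list {M : Type} [AddCommMonoid M] (f : ℕ → M) (n : ℕ) :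
    ((List.range n).map f).sum = ∑ j ∈ Finset.range n, f j := rfl

theorem list_sum_finset {α : Type} (l : List α) (f : α → ℕ → ℂ) (s : Finset ℕ) :
    (l.map fun z => ∑ j ∈ s, f z j).sum = ∑ j ∈ s, (l.map fun z => f z j).sum := by
  induction l with
  | nil => simp
  | cons z l ih => simp [ih, Finset.sum_add_distrib]

theorem cutG_u (p r : A) : cutG S L p r Atom.u = kap L * ∑ j ∈ Finset.range L,
    (S.τ (p * car S (Word.P j)⁻¹) * S.τ (car S (Word.Q L j)⁻¹ * ((S.u1 : A) * r)) -
      S.τ (p * car S (Word.Q L j)) * S.τ (car S (Word.P j) * ((S.u1 : A) * r))) := by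
  simp only [cutG, dG_sg, dgrp, Word.cross_a]
  rw [Finsupp.sum_single_index (by simp), Int.cast_one, one_smul, cutPair_shift, cutPair_ins,
    inv_one, one_mul, map_one, mul_one, car_a]

theorem cutG_ui (p r : A) : cutG S L p r Atom.ui = kap L * ∑ j ∈ Finset.range L,
    (S.τ (p * star (S.u1 : A) * car S (Word.Q L j)) * S.τ (car S (Word.P j) * r) -
      S.τ (p * star (S.u1 : A) * car S (Word.P j)⁻¹) * S.τ (car S (Word.Q L j)⁻¹ * r)) := by
  simp only [cutG, dG_sg, dgrp, Word.cross_inv, Word.cross_a, Word.shift_single, mul_one,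
    ← Finsupp.single_neg]
  rw [Finsupp.sum_single_index (by simp), Int.cast_neg, Int.cast_one, map_smul, smul_eq_mul,
    cutPair_shift, cutPair_ins, inv_inv, mul_inv_cancel, map_one, one_mul, car_inv Word.a, car_a,
    neg_one_mul, ← mul_neg, ← Finset.sum_neg_distrib]
  simp only [neg_sub]

theorem xC_terms {j : ℕ} (hj : j < L) (p r : A) (c d : Const S) (U V : List (Atom S))
    (hU : qnum U = 0) (hV : qnum V = 0) :
    Qs S p r (U ++ (adjW (aPre S j) ++ [Atom.d c, Atom.q, Atom.d d] ++ adjW (aSuf S L j)) ++ V) =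
        S.τ (c.1 * p * ev (base S) U * car S (Word.P j)⁻¹) *
          S.τ (car S (Word.Q L j)⁻¹ * (ev (base S) V * (r * d.1))) ∧
      Qs S p r (U ++ (aSuf S L j ++ [Atom.d c, Atom.q, Atom.d d] ++ aPre S j) ++ V) =
        S.τ (c.1 * p * ev (base S) U * car S (Word.Q L j)) *
          S.τ (car S (Word.P j) * (ev (base S) V * (r * d.1))) := by
  have e : ∀ X Y : List (Atom S), qnum X = 0 → qnum Y = 0 →
      Qs S p r (U ++ (X ++ [Atom.d c, Atom.q, Atom.d d] ++ Y) ++ V) =
        S.τ (c.1 * p * ev (base S) U * ev (base S) X) *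
          S.τ (ev (base S) Y * (ev (base S) V * (r * d.1))) := by
    intro X Y hX hY
    rw [show U ++ (X ++ [Atom.d c, Atom.q, Atom.d d] ++ Y) ++ V =
        (U ++ X) ++ [Atom.d c, Atom.q, Atom.d d] ++ (Y ++ V) by simp [List.append_assoc],
      Qs_three _ _ (by rw [qnum_append, hU, hX]) (by rw [qnum_append, hY, hV]),
      tau_comm' _ c.1, mul_assoc d.1, tau_comm' d.1, ev_append, ev_append]
    simp only [mul_assoc]
  constructor
  · rw [e _ _ (by rw [qnum_adjW, qnum_aPre]) (by rw [qnum_adjW, qnum_aSuf]), ev_adjW (base S) S.q_star,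
      ev_adjW (base S) S.q_star, ev_aPre, ev_aSuf hj, car_inv, car_inv]
  · rw [e _ _ (qnum_aSuf L j) (qnum_aPre j), ev_aPre, ev_aSuf hj]

variable (P a b)

/-- The inserted letter against the cut at that letter. -/
theorem QsC_datom (p r : A) (l : Atom S) :
    QsC S p r (datom (P.pairs a b) L l) =
      ((P.pairs a b).map fun z => cutG S L (z.1.1 * p) (r * z.2.1) l).sum := by
  cases l with
  | d c => simp [datom, cutG]
  | v => simp [datom, cutG]
  | vi => simp [datom, cutG]
  | q =>
    simp only [cutG, List.map_const', List.sum_replicate, smul_zero]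
    refine List.sum_eq_zero fun x hx => ?_
    simp only [datom, List.mem_map, gC, List.mem_flatMap] at hx
    obtain ⟨_, ⟨_, ⟨z, -, hw⟩, rfl⟩, rfl⟩ := hx
    simp only [List.mem_cons, List.not_mem_nil, or_false] at hw
    rcases hw with rfl | rfl
    · rw [Qs_noq _ _ (by rw [qnum_append, qnum_append, qnum_aWrd]; rfl), mul_zero]
    · rw [Qs_noq _ _ (by rw [qnum_append, qnum_append, qnum_adjW, qnum_aWrd]; rfl), mul_zero]
  | u =>
    simp only [cutG_u, Finset.mul_sum, list_sum_finset]
    simp only [datom, xC, List.map_flatMap, QsC_flatMap, sum_range_list]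
    refine Finset.sum_congr rfl fun j hj => ?_
    refine congrArg List.sum (List.map_congr_left fun z _ => ?_)
    obtain ⟨h1, h2⟩ := xC_terms (Finset.mem_range.1 hj) p r z.1 z.2 [] [Atom.u] rfl rfl
    rw [List.nil_append] at h1 h2
    simp only [List.map_cons, List.map_nil, QsC_cons, QsC_nil, h1, h2]
    simp [base, Atom.val, ev, mul_assoc]
    ring
  | ui =>
    simp only [cutG_ui, Finset.mul_sum, list_sum_finset]
    simp only [datom, xC, adjC, List.map_flatMap, List.map_map, QsC_flatMap, sum_range_list]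
    refine Finset.sum_congr rfl fun j hj => ?_
    rw [← pairs_swap P a b fun c d => kap L *
      (S.τ (c.1 * p * star (S.u1 : A) * car S (Word.Q L j)) *
          S.τ (car S (Word.P j) * (r * d.1)) -
        S.τ (c.1 * p * star (S.u1 : A) * car S (Word.P j)⁻¹) *
          S.τ (car S (Word.Q L j)⁻¹ * (r * d.1)))]
    refine congrArg List.sum (List.map_congr_left fun z hz => ?_)
    obtain ⟨h1, h2⟩ := xC_terms (Finset.mem_range.1 hj) p r z.2 z.1 [Atom.ui] [] rfl rfl
    have hk : starRingEnd ℂ (kap L) = kap L := Complex.conj_ofReal _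
    rw [List.append_nil] at h1 h2
    simp only [List.map_cons, List.map_nil, Function.comp_apply, QsC_cons, QsC_nil, adjW_append _ [Atom.u],
      xC_adj_term hz, adjW_adjW, map_neg, hk,
      show adjW [(Atom.u : Atom S)] = [Atom.ui] from rfl, h1, h2]
    simp [base, Atom.val, ev, mul_assoc]
    ring

/-! ### The induction -/

/-- The trace of the derivative of a word. -/
noncomputable def TT (pr : List (Const S × Const S)) (L : ℕ) (W : List (Atom S)) : ℂ :=
  S.τ (tot (base S) (dev pr L W))

theorem tot_dev_cons (s : A × A) (pr : List (Const S × Const S)) (l : Atom S)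
    (V : List (Atom S)) :
    tot s (dev pr L (l :: V)) = tot s (datom pr L l) * ev s V + l.val s * tot s (dev pr L V) := by
  simp only [dev, tot_append, tot_map_right]
  rw [show (dev pr L V).map (fun z => (z.1, l :: z.2)) =
    (dev pr L V).map fun z => (z.1, [l] ++ z.2) from rfl, tot_map_left]
  simp

theorem tot_dev_append (s : A × A) (pr : List (Const S × Const S)) (U V : List (Atom S)) :
    tot s (dev pr L (U ++ V)) = tot s (dev pr L U) * ev s V + ev s U * tot s (dev pr L V) := by
  induction U with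
  | nil => simp [dev]
  | cons l U ih =>
    rw [List.cons_append, tot_dev_cons, tot_dev_cons, ih, ev_append, ev_cons]
    simp only [mul_assoc, mul_add, add_mul]
    abel

theorem TT_rot (pr : List (Const S × Const S)) (U V : List (Atom S)) :
    TT pr L (U ++ V) = TT pr L (V ++ U) := by
  simp only [TT, tot_dev_append, S.τ_add, tau_comm' (ev (base S) U), tau_comm' (ev (base S) V)]
  ring

theorem qnum_cons (l : Atom S) (W : List (Atom S)) :
    qnum (l :: W) = qnum W + if isQ l then 1 else 0 := by simp [qnum, List.countP_cons]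

theorem exists_q {W : List (Atom S)} (h : qnum W ≠ 0) :
    ∃ U V, W = U ++ Atom.q :: V := by
  obtain ⟨l, hl, hq⟩ := List.countP_pos_iff.1 (Nat.pos_of_ne_zero h)
  obtain ⟨U, V, rfl⟩ := List.mem_iff_append.1 hl
  cases l <;> first | exact ⟨U, V, rfl⟩ | exact absurd hq (by simp [isQ])

theorem tau_ev_one {W : List (Atom S)} (h : qnum W = 1) : S.τ (ev (base S) W) = 0 := by
  obtain ⟨U, V, rfl⟩ := exists_q (W := W) (by omega)
  rw [ev_append, tau_comm', ev_cons, mul_assoc, ← ev_append]
  refine (tau_q_ev _).trans (Qs_noq _ _ ?_)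
  rw [qnum_append] at h ⊢
  rw [qnum_cons] at h
  simp [isQ] at h
  omega

theorem datom_qnum {l : Atom S} (hl : isQ l = false) :
    ∀ z ∈ datom (P.pairs a b) L l, qnum z.2 = 1 := by
  have hx : ∀ z ∈ xC (P.pairs a b) L, qnum z.2 = 1 := by
    intro z hz
    simp only [xC, List.mem_flatMap, List.mem_cons, List.not_mem_nil, or_false] at hz
    obtain ⟨j, -, y, -, rfl | rfl⟩ := hz <;>
      simp [qnum_append, qnum_adjW, qnum_aPre, qnum_aSuf, qnum_cons, isQ]
  intro z hz
  cases l with
  | q => simp [isQ] at hl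
  | u =>
    obtain ⟨y, hy, rfl⟩ := List.mem_map.1 hz
    rw [qnum_append, hx y hy]
    rfl
  | ui =>
    simp only [datom, adjC, List.map_map, List.mem_map, Function.comp_apply] at hz
    obtain ⟨y, hy, rfl⟩ := hz
    rw [qnum_adjW, qnum_append, hx y hy]
    rfl
  | _ => simp [datom] at hz

theorem dev_qnum : ∀ {W : List (Atom S)}, qnum W = 0 →
    ∀ z ∈ dev (P.pairs a b) L W, qnum z.2 = 1 := by
  intro W
  induction W with
  | nil => simp [dev]
  | cons l W ih =>
    intro h z hz
    obtain ⟨hl, hW⟩ : isQ l = false ∧ qnum W = 0 := by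
      cases hb : isQ l <;> simp_all [qnum_cons]
    rw [dev, List.mem_append, List.mem_map, List.mem_map] at hz
    rcases hz with ⟨y, hy, rfl⟩ | ⟨y, hy, rfl⟩
    · rw [qnum_append, datom_qnum P a b hl y hy, hW]
    · rw [qnum_cons, ih hW y hy, hl]
      rfl

theorem tau_tot_zero {l : Comb S} (h : ∀ z ∈ l, S.τ (ev (base S) z.2) = 0) :
    S.τ (tot (base S) l) = 0 := by
  induction l with
  | nil => simp [S.τ_zero]
  | cons z l ih =>
    rw [tot_cons, S.τ_add, S.τ_smul, h z (by simp), ih fun y hy => h y (by simp [hy])]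
    simp

/-- Splitting the derivative of a word at its letters `q`: only the inserted letters count. -/
theorem QsC_dev {n : ℕ} (h0 : ∀ V, qnum V ≤ n → TT (P.pairs a b) L V = 0)
    (W U : List (Atom S)) (hn : qnum U + qnum W ≤ n) :
    QsC S (ev (base S) U) 1 (dev (P.pairs a b) L W) +
        Qs S (tot (base S) (dev (P.pairs a b) L U)) 1 W =
      ((P.pairs a b).map fun z => cutsG S L (z.1.1 * ev (base S) U) z.2.1 W).sum := by
  induction W generalizing U with
  | nil => simp [dev, Qs, cutsG, cuts]
  | cons l W ih =>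
    have hW : qnum U + qnum W ≤ n ∧ qnum U ≤ n ∧ qnum W ≤ n := by
      rw [qnum_cons] at hn; omega
    have hU : qnum (U ++ [l]) + qnum W ≤ n := by
      rw [qnum_append, qnum_cons]; rw [qnum_cons] at hn; simp [qnum] at *; omega
    have hT1 : S.τ (tot (base S) (dev (P.pairs a b) L U)) = 0 := h0 U hW.2.1
    have hT2 : S.τ (tot (base S) (dev (P.pairs a b) L W)) = 0 := h0 W hW.2.2
    have hI := ih (U ++ [l]) hU
    simp only [ev_append, ev_cons, ev_nil, mul_one, tot_dev_append, Qs_add] at hI
    rw [show tot (base S) (dev (P.pairs a b) L [l]) = tot (base S) (datom (P.pairs a b) L l) by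
      rw [tot_dev_cons]; simp [dev]] at hI
    rw [dev, QsC_append, QsC_map_right, QsC_map_left, Qs]
    simp only [mul_one, hT1, hT2, QsC_datom]
    simp only [cutsG_cons, List.sum_map_add, zero_mul, mul_zero, zero_add, mul_assoc]
      at hI ⊢
    linear_combination hI

theorem rep_jG (L : ℕ) :
    repG S (jG L) = lam • (car S (Word.W L) + star (car S (Word.W L))) := by
  simp [jG, map_add, car_inv]

theorem tot_gC_eq (pr : List (Const S × Const S)) (L : ℕ) :
    tot (base S) (gC pr L) =
      (pr.map fun z => z.1.1 * repG S (jG L) * z.2.1).sum := by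
  induction pr with
  | nil => simp [gC]
  | cons z pr ih =>
    rw [gC, List.flatMap_cons, tot_append, ← gC, ih, List.map_cons, List.sum_cons, rep_jG]
    congr 1
    simp only [tot_cons, tot_nil, add_zero, ev_append, ev_cons, ev_nil, mul_one,
      ev_adjW (base S) S.q_star, ev_aWrd, smul_add, mul_add, add_mul, mul_smul_comm, smul_mul_assoc,
      mul_assoc]
    rfl

/-- A word beginning with `q`. -/
theorem TT_q {n : ℕ} (hL : 0 < L) (h0 : ∀ V, qnum V ≤ n → TT (P.pairs a b) L V = 0)
    (Y : List (Atom S)) (hY : qnum Y ≤ n) : TT (P.pairs a b) L (Atom.q :: Y) = 0 := by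
  have h1 := QsC_dev P a b h0 Y [] (by simpa [qnum] using hY)
  simp only [ev_nil, dev, tot_nil, Qs_zero, add_zero, mul_one, cutsG_eq hL] at h1
  rw [pairs_swap P a b (fun c d => S.τ (repG S (jG L) * (d.1 * ev (base S) Y * c.1)))] at h1
  have hg : tot (base S) (datom (P.pairs a b) L Atom.q) = -tot (base S) (gC (P.pairs a b) L) := by
    have := tot_map_scale (base S) (gC (P.pairs a b) L) (-1)
    simpa [datom] using this
  rw [TT, tot_dev_cons, S.τ_add, hg, neg_mul, S.τ_neg]
  rw [show Atom.val (base S) (Atom.q : Atom S) = S.q from rfl, tau_q_tot, h1, tot_gC_eq,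
    ← List.sum_map_mul_right, show S.τ = S.τL from rfl, map_list_sum, List.map_map,
    neg_add_eq_zero]
  refine congrArg List.sum (List.map_congr_left fun z _ => ?_)
  simp only [Function.comp_apply, Std.τL_apply]
  simp only [mul_assoc]
  rw [← mul_assoc z.1.1, tau_comm' (z.1.1 * _)]
  simp only [mul_assoc]
  conv_rhs => rw [tau_comm']
  simp only [mul_assoc]

end VP086.Invar

namespace VP086

open Invar in
/-- **The trace kills the derivation.** -/
theorem invariance : InvarianceSpec := by
  intro A _ H _ _ S K P a b L hL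
  suffices h : ∀ n, ∀ W : List (Atom S), qnum W ≤ n → TT (P.pairs a b) L W = 0 from
    fun W => h _ W le_rfl
  intro n
  induction n with
  | zero =>
    intro W hW
    exact tau_tot_zero fun z hz => tau_ev_one (dev_qnum P a b (Nat.le_zero.1 hW) z hz)
  | succ n ih =>
    intro W hW
    by_cases hq : qnum W ≤ n
    · exact ih W hq
    obtain ⟨U, V, rfl⟩ := exists_q (W := W) (by omega)
    rw [TT_rot, List.cons_append]
    refine TT_q P a b hL ih _ ?_
    rw [qnum_append, qnum_cons] at hW
    rw [qnum_append]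
    simp [isQ] at hW
    omega

end VP086
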