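import Vale.Agent.P086.Defs
import Vale.Agent.P086.Word.Bounds

/-!
P086: the norms of the field and of the defect of the rotation.
-/

open scoped InnerProductSpace

namespace VP086

open Word

variable {A : Type} [CStarAlgebra A] {H : Type} [NormedAddCommGroup H] [InnerProductSpace ℂ H]
  {S : System A H}

/-! ### Monoid words -/

lemma blk_add {M : Type} [Monoid M] (a b : M) :
    ∀ i m n, blk a b i (m + n) = blk a b i m * blk a b (i + m) n
  | i, 0, n => by simp [blk]
  | i, m + 1, n => by
    rw [show m + 1 + n = (m + n) + 1 by omega, blk, blk, blk_add a b (i + 1) m n,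
      show i + (m + 1) = i + 1 + m by omega]
    simp only [mul_assoc]

lemma map_blk {M N : Type} [Monoid M] [Monoid N] (f : M →* N) (a b : M) :
    ∀ i k, f (blk a b i k) = blk (f a) (f b) i k
  | i, 0 => by simp [blk]
  | i, k + 1 => by simp [blk, map_blk f a b (i + 1) k]

lemma blk_succ {M : Type} [Monoid M] (a b : M) (k : ℕ) :
    blk a b 0 (k + 1) = blk a b 0 k * b ^ (k + 1) * a := by
  rw [blk_add a b 0 k 1]
  simp [blk, mul_assoc]

lemma blk_eq_W : ∀ k, blk Word.a Word.b 0 k = W k
  | 0 => rfl
  | k + 1 => by rw [blk_succ, blk_eq_W k]; rfl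

lemma pre_eq_P (j : ℕ) : pre Word.a Word.b j = P j := by rw [pre, blk_eq_W]; rfl

lemma suf_eq_Q {L j : ℕ} (hj : j < L) : suf Word.a Word.b L j = Q L j := by
  obtain ⟨m, rfl⟩ : ∃ m, L = j + 1 + m := ⟨L - j - 1, by omega⟩
  rw [Q, eq_inv_mul_iff_mul_eq, ← blk_eq_W, ← pre_eq_P, blk_add _ _ 0 (j + 1), blk_succ,
    zero_add, pre, suf, show j + 1 + m - j - 1 = m by omega]
  simp only [mul_assoc]

/-- Evaluation of formal words, as a homomorphism. -/
noncomputable def evHom (s : A × A) : FreeMonoid (Atom S) →* A where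
  toFun W := ev s W.toList
  map_one' := rfl
  map_mul' _ _ := ev_append s _ _

lemma E_hom (g h : G2) : E S (g * h) = E S g * E S h := (E_mul g h).symm

/-- The carriers, as a homomorphism to `A`. -/
noncomputable def EHom (S : System A H) : G2 →* A where
  toFun := E S
  map_one' := E_one
  map_mul' := E_hom

lemma evHom_base_blk (i k : ℕ) :
    ev (base S) (blk (FreeMonoid.of (Atom.u : Atom S)) (FreeMonoid.of Atom.v) i k).toList =
      E S (blk Word.a Word.b i k) := by
  show evHom (S := S) (base S) _ = EHom S _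
  rw [map_blk, map_blk]
  congr 1

lemma ev_aWrd (k : ℕ) : ev (base S) (aWrd S k) = E S (W k) := by
  rw [aWrd, wrd, evHom_base_blk, blk_eq_W]

lemma ev_aPre (j : ℕ) : ev (base S) (aPre S j) = E S (P j) := by
  rw [← pre_eq_P]
  show evHom (S := S) (base S) _ = EHom S _
  rw [pre, pre, map_mul, map_mul, map_pow, map_pow]
  congr 1
  · exact evHom_base_blk 0 j


lemma ev_aSuf {L j : ℕ} (hj : j < L) : ev (base S) (aSuf S L j) = E S (Q L j) := by
  rw [← suf_eq_Q hj, aSuf]
  show evHom (base S) (suf (FreeMonoid.of (Atom.u : Atom S)) (FreeMonoid.of Atom.v) L j) =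
    EHom S (suf Word.a Word.b L j)
  rw [suf, suf, map_mul, map_mul]
  refine congrArg₂ (· * ·) ?_ (evHom_base_blk _ _)
  simp [evHom, EHom, E, wordHom, Word.a, Atom.val, base]

lemma base_sa : star (base S).2 = (base S).2 := (S.q_star :)

/-! ### Sums of combinations -/

lemma tot_flatMap {α : Type} (s : A × A) (xs : List α) (f : α → Comb S) :
    tot s (xs.flatMap f) = (xs.map fun x => tot s (f x)).sum := by
  induction xs with
  | nil => simp
  | cons x xs ih => rw [List.flatMap_cons, tot_append, ih, List.map_cons, List.sum_cons]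

lemma tot_flatMap_range (s : A × A) (n : ℕ) (f : ℕ → Comb S) :
    tot s ((List.range n).flatMap f) = ∑ j ∈ Finset.range n, tot s (f j) := by
  rw [tot_flatMap]
  exact List.sum_toFinset _ (List.nodup_range) |>.symm.trans (by rw [List.toFinset_range])

lemma cmp_list (pr : List (Const S × Const S)) (x : A) (c : ℂ) :
    (pr.map fun p => c • (p.1.1 * x * p.2.1)).sum = c • cmp pr x := by
  rw [cmp, List.smul_sum, List.map_map]; rfl

lemma tot_yC (s : A × A) (pr : List (Const S × Const S)) : tot s (yC pr) = cmp pr s.2 := by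
  rw [tot, yC, cmp, List.map_map]
  congr 1
  refine List.map_congr_left fun p _ => ?_
  simp [Atom.val, mul_assoc]

lemma cmp_add (pr : List (Const S × Const S)) (x y : A) : cmp pr (x + y) = cmp pr x + cmp pr y := by
  induction pr with
  | nil => simp [cmp]
  | cons p pr ih =>
    simp only [cmp, List.map_cons, List.sum_cons] at ih ⊢
    rw [ih, mul_add, add_mul]; abel

lemma cmp_smul (pr : List (Const S × Const S)) (c : ℂ) (x : A) : cmp pr (c • x) = c • cmp pr x := by
  rw [← cmp_list, cmp]
  simp only [mul_smul_comm, smul_mul_assoc]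

lemma tot_gC (s : A × A) (pr : List (Const S × Const S)) (L : ℕ) :
    tot s (gC pr L) = lam • cmp pr (ev s (aWrd S L) + ev s (adjW (aWrd S L))) := by
  rw [gC, tot_flatMap, ← cmp_list]
  congr 1
  refine List.map_congr_left fun p _ => ?_
  simp [ev_append, Atom.val, smul_add, mul_add, add_mul, mul_assoc]

lemma tot_xC (s : A × A) (pr : List (Const S × Const S)) (L : ℕ) :
    tot s (xC pr L) = kap L • ∑ j ∈ Finset.range L,
      (ev s (adjW (aPre S j)) * tot s (yC pr) * ev s (adjW (aSuf S L j)) -
        ev s (aSuf S L j) * tot s (yC pr) * ev s (aPre S j)) := by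
  rw [xC, tot_flatMap_range, Finset.smul_sum]
  refine Finset.sum_congr rfl fun j _ => ?_
  rw [tot_yC, tot_flatMap]
  induction pr with
  | nil => simp [cmp]
  | cons p pr ih =>
    rw [List.map_cons, List.sum_cons, ih]
    simp [cmp, ev_append, Atom.val, mul_add, add_mul, mul_assoc, smul_sub, smul_add]
    abel

/-! ### The derivation on words -/

lemma tot_dev_append (s : A × A) (pr : List (Const S × Const S)) (L : ℕ) :
    ∀ U V : List (Atom S), tot s (dev pr L (U ++ V)) =
      tot s (dev pr L U) * ev s V + ev s U * tot s (dev pr L V)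
  | [], V => by simp [dev]
  | l :: U, V => by
    rw [List.cons_append, dev, dev, tot_append, tot_append, tot_map_right, tot_map_right,
      ev_append]
    rw [show (fun p : ℂ × List (Atom S) => (p.1, l :: p.2)) = fun p => (p.1, [l] ++ p.2) from rfl,
      tot_map_left, tot_map_left, tot_dev_append s pr L U V, ev_cons]
    simp [mul_add, add_mul, mul_assoc, add_assoc]

lemma tot_dev_single (s : A × A) (pr : List (Const S × Const S)) (L : ℕ) (l : Atom S) :
    tot s (dev pr L [l]) = tot s (datom pr L l) := by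
  simp [dev]

lemma tot_dev_replicate_v (s : A × A) (pr : List (Const S × Const S)) (L : ℕ) :
    ∀ n, tot s (dev pr L (List.replicate n Atom.v)) = 0
  | 0 => by simp [dev]
  | n + 1 => by
    rw [List.replicate_succ, ← List.singleton_append, tot_dev_append, tot_dev_single,
      tot_dev_replicate_v s pr L n]
    simp [datom]

lemma tot_dev_adjW (s : A × A) (hs : star s.2 = s.2) (pr : List (Const S × Const S)) (L : ℕ) :
    ∀ W : List (Atom S), (∀ l ∈ W, l ≠ Atom.q) →
      tot s (dev pr L (adjW W)) = star (tot s (dev pr L W))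
  | [], _ => by simp [adjW, dev]
  | l :: W, hW => by
    rw [show adjW (l :: W) = adjW W ++ [l.adj] by simp [adjW], tot_dev_append,
      tot_dev_adjW s hs pr L W (fun k hk => hW k (List.mem_cons_of_mem _ hk)),
      ← List.singleton_append (x := l), tot_dev_append, ev_adjW s hs, tot_dev_single,
      tot_dev_single]
    have hl : tot s (datom pr L l.adj) = star (tot s (datom pr L l)) := by
      cases l with
      | q => exact absurd rfl (hW _ List.mem_cons_self)
      | u => simp [Atom.adj, datom, tot_adjC s hs]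
      | ui => simp [Atom.adj, datom, tot_adjC s hs]
      | d c => simp [Atom.adj, datom]
      | v => simp [Atom.adj, datom]
      | vi => simp [Atom.adj, datom]
    simp [hl, val_adj s hs, add_comm]

lemma aWrd_succ (S : System A H) (k : ℕ) :
    aWrd S (k + 1) = aWrd S k ++ List.replicate (k + 1) Atom.v ++ [Atom.u] := by
  rw [aWrd, aWrd, wrd, wrd, blk_succ, FreeMonoid.toList_mul, FreeMonoid.toList_mul]
  congr 2
  induction k + 1 with
  | zero => rfl
  | succ n ih => rw [pow_succ', FreeMonoid.toList_mul, ih]; rfl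

lemma no_q_aWrd : ∀ k, ∀ l ∈ aWrd S k, l ≠ (Atom.q : Atom S)
  | 0, l, h => by simp [aWrd, wrd, blk] at h
  | k + 1, l, h => by
    rw [aWrd_succ] at h
    simp only [List.mem_append, List.mem_replicate, List.mem_singleton] at h
    rcases h with (h | h) | h
    · exact no_q_aWrd k l h
    · rw [h.2]; simp
    · rw [h]; simp

lemma ev_replicate_v (n : ℕ) : ev (base S) (List.replicate n (Atom.v : Atom S)) = E S (Word.b ^ n) := by
  induction n with
  | zero => simp
  | succ n ih =>
    rw [List.replicate_succ, ev_cons, ih, pow_succ', E_hom]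
    congr 1
    simp [Atom.val, E, wordHom, Word.b]

lemma tot_dev_aWrd (pr : List (Const S × Const S)) (L : ℕ) : ∀ k,
    tot (base S) (dev pr L (aWrd S k)) = ∑ j ∈ Finset.range k,
      E S (P j) * tot (base S) (xC pr L) * E S (Q k j)
  | 0 => by simp [aWrd, wrd, blk, dev]
  | k + 1 => by
    have hu : tot (base S) (datom pr L Atom.u) = tot (base S) (xC pr L) * E S Word.a := by
      rw [datom, tot_map_right]
      congr 1
    have hua : ev (base S) [(Atom.u : Atom S)] = E S Word.a := by
      simp [Atom.val, E, wordHom, Word.a, base]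
    rw [aWrd_succ, tot_dev_append, tot_dev_append, tot_dev_replicate_v, tot_dev_aWrd pr L k,
      tot_dev_single, hu, hua, ev_append, ev_aWrd, ev_replicate_v, Finset.sum_range_succ]
    congr 1
    · rw [mul_zero, add_zero, Finset.sum_mul, Finset.sum_mul]
      refine Finset.sum_congr rfl fun j _ => ?_
      rw [mul_assoc _ (E S (Q k j)), E_mul, mul_assoc _ (E S _) (E S Word.a), E_mul]
      congr 2
      simp [Q, W, mul_assoc]
    · rw [E_mul, mul_assoc]
      congr 3
      simp [Q, W, P]
      group

/-! ### Pieces -/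

lemma Arcs.tau_p' {K : ℕ} (P : Arcs S K) (i : Fin K) :
    S.τ (P.p i).1 = ((1 / K : ℝ) : ℂ) := by rw [P.tau_p i]; simp

/-- The piece of two arcs. -/
noncomputable def Arcs.piece {K : ℕ} (P : Arcs S K) (a b : Fin K) : Word.Piece S :=
  if h : a = b then
    Word.Piece.diag (P.p a).1 (1 / K) (P.p a).2.1 (P.star_p a) (by simp [P.mul_p]) (P.tau_p' a)
  else
    Word.Piece.pair (P.p a).1 (P.p b).1 (1 / K) (P.p a).2.1 (P.p b).2.1 (P.star_p a) (P.star_p b)
      (by simp [P.mul_p]) (by simp [P.mul_p]) (by simp [P.mul_p, h])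
      (by simp [P.mul_p, Ne.symm h]) (P.tau_p' a) (P.tau_p' b)

lemma Arcs.piece_t {K : ℕ} (P : Arcs S K) (a b : Fin K) : (P.piece a b).t = 1 / K := by
  unfold Arcs.piece; split_ifs <;> rfl

lemma Arcs.cmp_eq {K : ℕ} (P : Arcs S K) (a b : Fin K) (x : A) :
    cmp (P.pairs a b) x = (P.piece a b).C x := by
  unfold Arcs.piece Arcs.pairs
  split_ifs with h
  · show _ = ∑ i, ![(P.p a).1] i * x * ![(P.p a).1] i
    simp [cmp]
  · show _ = ∑ i, ![(P.p a).1, (P.p b).1] i * x * ![(P.p b).1, (P.p a).1] i
    simp [cmp, Fin.sum_univ_two]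

lemma tot_devC_yC (s : A × A) (pr : List (Const S × Const S)) (L : ℕ) :
    tot s (devC pr L (yC pr)) = -cmp pr (tot s (gC pr L)) := by
  have hy : devC pr L (yC pr) = pr.flatMap fun p =>
      (dev pr L [Atom.d p.1, Atom.q, Atom.d p.2]) := by
    simp [devC, yC, List.flatMap_map]
  rw [hy, tot_flatMap, ← neg_one_smul ℂ (cmp pr _), ← cmp_list]
  congr 1
  refine List.map_congr_left fun p _ => ?_
  rw [show [Atom.d p.1, Atom.q, Atom.d p.2] = [Atom.d p.1] ++ ([Atom.q] ++ [Atom.d p.2]) from rfl,
    tot_dev_append, tot_dev_append, tot_dev_single, tot_dev_single, tot_dev_single]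
  have hq : tot s (datom pr L Atom.q) = -tot s (gC pr L) := by
    rw [datom, show (fun r : ℂ × List (Atom S) => (-r.1, r.2)) = fun r => ((-1 : ℂ) * r.1, r.2) by
      simp, tot_map_scale, neg_one_smul]
  rw [hq]
  simp [datom, Atom.val, mul_assoc]

lemma tot_devC_gC (s : A × A) (pr : List (Const S × Const S)) (L : ℕ) :
    tot s (devC pr L (gC pr L)) =
      lam • cmp pr (tot s (dev pr L (aWrd S L)) + tot s (dev pr L (adjW (aWrd S L)))) := by
  have key : ∀ ps : List (Const S × Const S), tot s (devC pr L (gC ps L)) =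
      lam • cmp ps (tot s (dev pr L (aWrd S L)) + tot s (dev pr L (adjW (aWrd S L)))) := by
    intro ps
    rw [← cmp_list, devC, gC, List.flatMap_assoc, tot_flatMap]
    congr 1
    refine List.map_congr_left fun p _ => ?_
    simp [tot_append, tot_map_scale]
    have hl : ∀ (l : Atom S) (V : List (Atom S)), tot s (dev pr L (l :: V)) =
        tot s (datom pr L l) * ev s V + l.val s * tot s (dev pr L V) := fun l V => by
      simpa [tot_dev_single] using tot_dev_append s pr L [l] V
    simp only [hl, tot_dev_append]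
    simp [dev, datom, Atom.val, mul_assoc, mul_add, add_mul, smul_add]
  exact key pr

/-! ### Transfer along the law -/

/-- The product of two combinations. -/
def mulC (l l' : Comb S) : Comb S := l.flatMap fun p => l'.map fun r => (p.1 * r.1, p.2 ++ r.2)

lemma tot_mulC (s : A × A) (l l' : Comb S) : tot s (mulC l l') = tot s l * tot s l' := by
  induction l with
  | nil => simp [mulC]
  | cons p l ih =>
    rw [mulC, List.flatMap_cons, tot_append, ← mulC, ih, tot_cons, add_mul]
    congr 1
    rw [show (fun r : ℂ × List (Atom S) => (p.1 * r.1, p.2 ++ r.2)) =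
      (fun r => (p.1 * r.1, r.2)) ∘ fun r => (r.1, p.2 ++ r.2) from rfl, ← List.map_map,
      tot_map_scale, tot_map_left, smul_mul_assoc]

lemma tau_tot (s : A × A) (l : Comb S) :
    S.τ (tot s l) = (l.map fun p => p.1 * S.τ (ev s p.2)).sum := by
  induction l with
  | nil => simp [Std.τ]
  | cons p l ih =>
    rw [tot_cons, List.map_cons, List.sum_cons, ← ih]
    simp [Std.τ]

lemma norm_tot_of_law {s : A × A} (hs : Law S s) (l : Comb S) :
    ‖S.ι (tot s l)‖ = ‖S.ι (tot (base S) l)‖ := by
  have h : ∀ s' : A × A, star s'.2 = s'.2 →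
      ((‖S.ι (tot s' l)‖ ^ 2 : ℝ) : ℂ) = S.τ (tot s' (mulC (adjC l) l)) := by
    intro s' hs'
    rw [tot_mulC, tot_adjC s' hs', ← Word.inner_eq_tau, inner_self_eq_norm_sq_to_K]
    push_cast; rfl
  have e : ((‖S.ι (tot s l)‖ ^ 2 : ℝ) : ℂ) = ((‖S.ι (tot (base S) l)‖ ^ 2 : ℝ) : ℂ) := by
    rw [h s hs.sa, h (base S) base_sa, tau_tot, tau_tot]
    simp only [hs.law]
  exact (pow_left_inj₀ (norm_nonneg _) (norm_nonneg _) two_ne_zero).1 (Complex.ofReal_injective e)

lemma kap_smul (L : ℕ) (x : A) : kap L • x = (1 / (Real.sqrt 2 * L) : ℝ) • x := by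
  rw [kap, ← Complex.coe_smul, one_div]

lemma lam_smul (x : A) : lam • x = (1 / Real.sqrt 2 : ℝ) • x := by
  rw [lam, ← Complex.coe_smul, one_div]

theorem statics : StaticSpec := by
  intro A _ H _ _ S K P a b L hL
  have hcmp := P.cmp_eq a b
  refine ⟨fun s hs => ?_, fun s hs => ⟨?_, ?_, ?_⟩⟩
  · rw [tot_xC, kap_smul, star_smul, star_trivial, ← smul_neg, star_sum, ← Finset.sum_neg_distrib]
    congr 1
    refine Finset.sum_congr rfl fun j _ => ?_
    have hy : star (tot s (yC (P.pairs a b))) = tot s (yC (P.pairs a b)) := by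
      rw [tot_yC, hcmp, Word.Piece.C_star, hs]
    simp [ev_adjW s hs, hy, mul_assoc]
  · rw [norm_tot_of_law hs]
    have e : tot (base S) (xC (P.pairs a b) L) = Xv L (E S) (P.piece a b).y := by
      rw [tot_xC, kap_smul, Xv]
      congr 1
      refine Finset.sum_congr rfl fun j hj => ?_
      rw [tot_yC, hcmp, ev_adjW _ base_sa, ev_adjW _ base_sa, ev_aPre,
        ev_aSuf (Finset.mem_range.1 hj), star_E, star_E]
      rfl
    rw [e]
    refine ((P.piece a b).norm_Xv_le hL).trans ?_
    have hy := (P.piece a b).norm_y_le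
    rw [P.piece_t] at hy
    have hk : ((P.piece a b).k : ℝ) ≤ 2 := by exact_mod_cast (P.piece a b).k_le
    have h2 : ‖S.ι (P.piece a b).y‖ ≤ 2 * (1 / K) :=
      hy.trans (mul_le_mul_of_nonneg_right hk (by positivity))
    calc 2 * ‖S.ι (P.piece a b).y‖ / Real.sqrt L ≤ 2 * (2 * (1 / K)) / Real.sqrt L := by gcongr
      _ = 4 / (K * Real.sqrt L) := by ring
  · rw [tot_devC_yC, tot_gC, cmp_smul, hcmp, hcmp, Word.Piece.C_C]
  · have e : ∀ s' : A × A, tot s' (devC (P.pairs a b) L (gC (P.pairs a b) L)) -
        tot s' (yC (P.pairs a b)) = tot s' (devC (P.pairs a b) L (gC (P.pairs a b) L) ++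
          (yC (P.pairs a b)).map fun p => (-1 * p.1, p.2)) := by
      intro s'
      rw [tot_append, tot_map_scale, neg_one_smul, sub_eq_add_neg]
    rw [e, norm_tot_of_law hs, ← e, tot_devC_gC, tot_yC, hcmp, hcmp,
      tot_dev_adjW _ base_sa _ _ _ (no_q_aWrd L), tot_dev_aWrd]
    have hX : tot (base S) (xC (P.pairs a b) L) = Xv L (E S) (P.piece a b).y := by
      rw [tot_xC, kap_smul, Xv]
      congr 1
      refine Finset.sum_congr rfl fun j hj => ?_
      rw [tot_yC, hcmp, ev_adjW _ base_sa, ev_adjW _ base_sa, ev_aPre,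
        ev_aSuf (Finset.mem_range.1 hj), star_E, star_E]
      rfl
    have hd : lam • (P.piece a b).C
        (∑ j ∈ Finset.range L, E S (Word.P j) * tot (base S) (xC (P.pairs a b) L) * E S (Q L j) +
          star (∑ j ∈ Finset.range L,
            E S (Word.P j) * tot (base S) (xC (P.pairs a b) L) * E S (Q L j))) =
        (P.piece a b).C (dgv L (E S) (P.piece a b).y) := by
      rw [hX, lam_smul, dgv, ← Word.Piece.C_smul]
      congr 2
      rw [star_sum, ← Finset.sum_add_distrib]
      refine Finset.sum_congr rfl fun j _ => ?_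
      rw [star_mul, star_mul, star_E, star_E,
        star_Xv L (E S) star_E (P.piece a b).star_y, neg_mul, mul_neg, sub_eq_add_neg]
      simp only [mul_assoc]
    rw [hd]
    refine ((P.piece a b).norm_err_le hL).trans ?_
    rw [P.piece_t]
    have hK : (0 : ℝ) ≤ 1 / (K : ℝ) ^ 2 := by positivity
    calc 12 * (1 / (K : ℝ)) ^ 2 = 12 * (1 / (K : ℝ) ^ 2) := by rw [div_pow, one_pow]
      _ ≤ 30 * (1 / (K : ℝ) ^ 2) := by linarith
      _ = 30 / (K : ℝ) ^ 2 := by ring

end VP086
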