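import Vale.Agent.P086.Round

/-!
P086: iteration of the rounds. The unitaries converge for the two-norm to a unitary with the law of
`u1`, whose algebra with the frame is two-norm dense in the whole algebra.
-/

open scoped InnerProductSpace

namespace VP086.Lim

variable {A : Type} [CStarAlgebra A] {H : Type} [NormedAddCommGroup H] [InnerProductSpace ℂ H]
variable {S : System A H}

/-- A product of approximations. -/
theorem approx_mul (S : Std A H) {x y a b : A} {Cx Cy d : ℝ}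
    (ha : ‖a‖ ≤ Cx) (hx : ‖S.ι (x - a)‖ ≤ Cx * d) (hy : ‖S.ι (y - b)‖ ≤ Cy * d) :
    ‖S.ι (x * y - a * b)‖ ≤ (‖y‖ * Cx + Cx * Cy) * d := by
  have h1 := mul_le_mul_of_nonneg_left hx (norm_nonneg y)
  have h2 : ‖a‖ * ‖S.ι (y - b)‖ ≤ Cx * (Cy * d) :=
    mul_le_mul ha hy (norm_nonneg _) ((norm_nonneg a).trans ha)
  have := nrm_mul_sub S a b x y
  have hC : 0 ≤ Cx := (norm_nonneg a).trans ha
  nlinarith

/-- An element of the algebra generated by `D`, `u2` and two unitaries is approximated, Lipschitz in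
the two-norm of the moves, by elements of any algebra containing the moved unitaries. -/
theorem near (S : System A H) (u v : unitary A) {x : A}
    (hx : x ∈ StarAlgebra.adjoin ℂ ((S.D : Set A) ∪ {(S.u2 : A), (u : A), (v : A)})) :
    ∃ C : ℝ, 0 ≤ C ∧ ∀ B : StarSubalgebra ℂ A, (S.D : Set A) ⊆ B → (S.u2 : A) ∈ B →
      ∀ u' v' : unitary A, (u' : A) ∈ B → (v' : A) ∈ B → ∃ a ∈ B, ‖a‖ ≤ C ∧
        ‖S.ι (x - a)‖ ≤ C * (‖S.ι ((u : A) - u')‖ + ‖S.ι ((v : A) - v')‖) := by
  induction hx using StarAlgebra.adjoin_induction with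
  | mem y hy =>
    refine ⟨max ‖y‖ 1, by positivity, fun B hD h2 u' v' hu hv => ?_⟩
    have h1 := le_max_right ‖y‖ (1 : ℝ)
    have n1 := norm_nonneg (S.ι ((u : A) - u'))
    have n2 := norm_nonneg (S.ι ((v : A) - v'))
    rcases hy with hy | rfl | rfl | rfl
    · exact ⟨y, hD hy, le_max_left _ _, by simp; positivity⟩
    · exact ⟨_, h2, le_max_left _ _, by simp; positivity⟩
    · exact ⟨_, hu, (norm_unit_le S.toStd u'.2).trans h1, by nlinarith⟩
    · exact ⟨_, hv, (norm_unit_le S.toStd v'.2).trans h1, by nlinarith⟩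
  | algebraMap r =>
    exact ⟨‖algebraMap ℂ A r‖, norm_nonneg _, fun B _ _ u' v' _ _ =>
      ⟨_, algebraMap_mem B r, le_rfl, by simp; positivity⟩⟩
  | add y z _ _ ihy ihz =>
    obtain ⟨C, hC, hy⟩ := ihy
    obtain ⟨C', hC', hz⟩ := ihz
    refine ⟨C + C', add_nonneg hC hC', fun B hD h2 u' v' hu hv => ?_⟩
    obtain ⟨a, ha, na, da⟩ := hy B hD h2 u' v' hu hv
    obtain ⟨b, hb, nb, db⟩ := hz B hD h2 u' v' hu hv
    refine ⟨a + b, add_mem ha hb, (norm_add_le _ _).trans (add_le_add na nb), ?_⟩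
    rw [show y + z - (a + b) = (y - a) + (z - b) by abel, map_add, add_mul]
    exact (norm_add_le _ _).trans (add_le_add da db)
  | mul y z _ _ ihy ihz =>
    obtain ⟨C, hC, hy⟩ := ihy
    obtain ⟨C', hC', hz⟩ := ihz
    refine ⟨‖z‖ * C + C * C', by positivity, fun B hD h2 u' v' hu hv => ?_⟩
    obtain ⟨a, ha, na, da⟩ := hy B hD h2 u' v' hu hv
    obtain ⟨b, hb, nb, db⟩ := hz B hD h2 u' v' hu hv
    refine ⟨a * b, mul_mem ha hb, ?_, approx_mul S.toStd na da db⟩
    exact (norm_mul_le _ _).trans <| (mul_le_mul na nb (norm_nonneg _) hC).trans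
      (le_add_of_nonneg_left (mul_nonneg (norm_nonneg _) hC))
  | star y _ ihy =>
    obtain ⟨C, hC, hy⟩ := ihy
    refine ⟨C, hC, fun B hD h2 u' v' hu hv => ?_⟩
    obtain ⟨a, ha, na, da⟩ := hy B hD h2 u' v' hu hv
    exact ⟨star a, star_mem ha, by rwa [norm_star], by rwa [← star_sub, nrm_star S.toStd]⟩

/-- The algebra of the frame and one unitary. -/
noncomputable def alg₁ (S : System A H) (w : A) : StarSubalgebra ℂ A :=
  (StarAlgebra.adjoin ℂ ((S.D : Set A) ∪ {(S.u2 : A), w})).topologicalClosure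

theorem alg₁_base (S : System A H) (w : A) :
    (S.D : Set A) ⊆ alg₁ S w ∧ (S.u2 : A) ∈ alg₁ S w ∧ w ∈ alg₁ S w := by
  refine ⟨fun x hx => ?_, ?_, ?_⟩
  all_goals refine StarSubalgebra.le_topologicalClosure _ (StarAlgebra.subset_adjoin ℂ _ ?_)
  · exact Or.inl hx
  · exact Or.inr (Or.inl rfl)
  · exact Or.inr (Or.inr rfl)

/-- A state with the law of the original one, generating `u1` and `q`. -/
def Good (S : System A H) (s : A × A) : Prop :=
  Law S s ∧ (S.u1 : A) ∈ alg S s ∧ S.q ∈ alg S s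

/-- The targets are found, up to `η`, in the algebra of any unitary `2β`-close to that of `s`. -/
def Decodes (S : System A H) (s : A × A) (β η : ℝ) : Prop :=
  ∀ w ∈ unitary A, ‖S.ι (w - s.1)‖ ≤ 2 * β → ∀ x ∈ ({(S.u1 : A), S.q} : Set A),
    ∃ a ∈ alg₁ S w, ‖S.ι (x - a)‖ ≤ 5 * η

theorem stage (hI : InvarianceSpec) (hS : StaticSpec) (hF : FlowSpec) (s : A × A) (hs : Good S s)
    (β : ℝ) (hβ : 0 < β) (η : ℝ) (hη : 0 < η) :
    ∃ (s' : A × A) (β' : ℝ), Good S s' ∧ 0 < β' ∧ β' ≤ β / 2 ∧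
      ‖S.ι (s'.1 - s.1)‖ ≤ β ∧ Decodes S s' β' η := by
  obtain ⟨hL, hu1, hq⟩ := hs
  set u : unitary A := ⟨s.1, hL.unit⟩
  set v : unitary A := ⟨cay s.2, cay_unitary hL.sa⟩
  set B₀ := StarAlgebra.adjoin ℂ ((S.D : Set A) ∪ {(S.u2 : A), (u : A), (v : A)}) with hB₀
  have hle : alg S s ≤ B₀.topologicalClosure := by
    refine StarSubalgebra.topologicalClosure_minimal (StarAlgebra.adjoin_le ?_)
      (StarSubalgebra.isClosed_topologicalClosure _)
    rintro x (hx | hx)
    · exact B₀.le_topologicalClosure (StarAlgebra.subset_adjoin ℂ _ (Or.inl hx))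
    · rcases hx with rfl | rfl | rfl
      · exact B₀.le_topologicalClosure (StarAlgebra.subset_adjoin ℂ _ (Or.inr (Or.inl rfl)))
      · exact B₀.le_topologicalClosure
          (StarAlgebra.subset_adjoin ℂ _ (Or.inr (Or.inr (Or.inl rfl))))
      · exact mem_of_cay_mem (StarSubalgebra.isClosed_topologicalClosure _) hL.sa
          (B₀.le_topologicalClosure
            (StarAlgebra.subset_adjoin ℂ _ (Or.inr (Or.inr (Or.inr rfl)))))
  obtain ⟨x₁, hx₁, d₁⟩ := Metric.mem_closure_iff.1 (hle hu1) η hη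
  obtain ⟨x₂, hx₂, d₂⟩ := Metric.mem_closure_iff.1 (hle hq) η hη
  obtain ⟨C₁, hC₁, n₁⟩ := near S u v hx₁
  obtain ⟨C₂, hC₂, n₂⟩ := near S u v hx₂
  set C := max C₁ C₂ + 1 with hCdef
  have hC : 0 < C := by positivity
  obtain ⟨K, hK⟩ := exists_nat_gt (122 * C / η)
  have hK0 : (0 : ℝ) < K := lt_trans (by positivity) hK
  have hKn : 0 < K := by exact_mod_cast hK0
  obtain ⟨p, hpD, hps, hpm, hpsum, hpτ⟩ := S.arcs K hKn
  have hp1 : ∀ i, ‖p i‖ ≤ 1 := by
    intro i
    have := CStarRing.norm_star_mul_self (x := p i)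
    rw [hps, hpm, if_pos rfl] at this
    nlinarith [norm_nonneg (p i)]
  let P : Arcs S K := ⟨fun i => ⟨p i, hpD i, hp1 i⟩, hps, hpm, hpsum, hpτ⟩
  obtain ⟨s', G, CG, hL', hd, hu, hq', hCG, hGs, hGl, hGm, hG⟩ :=
    round hI hS hF P hKn s hL (min β (η / C)) (lt_min hβ (by positivity))
  have hle' := alg_le_of_mem hu hq'
  refine ⟨s', min (β / 2) (η / (4 * C * (CG + 1))), ⟨hL', hle' hu1, hle' hq⟩,
    lt_min (by positivity) (by positivity), min_le_left _ _, hd.trans (min_le_left _ _), ?_⟩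
  intro w hw hwd x hx
  obtain ⟨hD, h2, hwm⟩ := alg₁_base S w
  have hGw : G w ∈ alg₁ S w := hGm _ hD h2 _ hwm
  have hv' : cay (G w) ∈ alg₁ S w := sub_mem (one_mem _)
    ((alg₁ S w).smul_mem (rsv_mem (StarSubalgebra.isClosed_topologicalClosure _) (hGs w) hGw) _)
  have key : ∀ (y x₀ : A) (C' : ℝ), 0 ≤ C' → C' ≤ C → dist y x₀ < η →
      (∀ B : StarSubalgebra ℂ A, (S.D : Set A) ⊆ B → (S.u2 : A) ∈ B →
        ∀ u' v' : unitary A, (u' : A) ∈ B → (v' : A) ∈ B → ∃ a ∈ B, ‖a‖ ≤ C' ∧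
          ‖S.ι (x₀ - a)‖ ≤ C' * (‖S.ι ((u : A) - u')‖ + ‖S.ι ((v : A) - v')‖)) →
      ∃ a ∈ alg₁ S w, ‖S.ι (y - a)‖ ≤ 5 * η := by
    intro y x₀ C' hC'0 hC' hdist hnear
    obtain ⟨a, ha, -, hda⟩ := hnear _ hD h2 ⟨w, hw⟩ ⟨cay (G w), cay_unitary (hGs w)⟩ hwm hv'
    refine ⟨a, ha, ?_⟩
    set β' := min (β / 2) (η / (4 * C * (CG + 1))) with hβ'
    have hβ'0 : 0 ≤ β' := le_min (by positivity) (by positivity)
    have hβ'1 : C * (CG + 1) * (4 * β') ≤ η := by
      have : β' ≤ η / (4 * C * (CG + 1)) := min_le_right _ _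
      rw [le_div_iff₀ (by positivity)] at this
      linarith
    have hε : C * min β (η / C) ≤ η := by
      refine (mul_le_mul_of_nonneg_left (min_le_right _ _) hC.le).trans (le_of_eq ?_)
      field_simp
    have hK' : C * (122 / (K : ℝ)) ≤ η := by
      rw [mul_div_assoc', div_le_iff₀ hK0]
      rw [div_lt_iff₀ hη] at hK
      linarith
    have e1 : ‖S.ι ((u : A) - w)‖ ≤ min β (η / C) + 2 * β' := by
      rw [show ((u : A) - w) = -((w - s'.1) + (s'.1 - s.1)) by simp [u], map_neg, norm_neg,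
        map_add]
      linarith [norm_add_le (S.ι (w - s'.1)) (S.ι (s'.1 - s.1))]
    have e2 : ‖S.ι ((v : A) - cay (G w))‖ ≤ 122 / (K : ℝ) + CG * (4 * β') := by
      refine (cay_lip S.toStd hL.sa (hGs w)).trans ?_
      rw [show s.2 - G w = (s.2 - G s'.1) + (G s'.1 - G w) by abel, map_add]
      have h3 : ‖S.ι (G s'.1 - G w)‖ ≤ CG * (2 * β') := by
        refine (hGl _ hL'.unit _ hw).trans ?_
        rw [map_sub, norm_sub_rev, ← map_sub]
        exact mul_le_mul_of_nonneg_left hwd hCG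
      linarith [norm_add_le (S.ι (s.2 - G s'.1)) (S.ι (G s'.1 - G w)),
        show 122 / (K : ℝ) = 2 * (61 / (K : ℝ)) by ring]
    have e3 : ‖S.ι (x₀ - a)‖ ≤ C * ((min β (η / C) + 2 * β') + (122 / (K : ℝ) + CG * (4 * β'))) :=
      hda.trans (mul_le_mul hC' (add_le_add e1 e2) (by positivity) hC.le)
    have e4 : ‖S.ι (y - x₀)‖ ≤ η := (norm_le S.toStd _).trans (dist_eq_norm y x₀ ▸ hdist.le)
    rw [show y - a = (y - x₀) + (x₀ - a) by abel, map_add]
    nlinarith [norm_add_le (S.ι (y - x₀)) (S.ι (x₀ - a)), mul_nonneg hC.le hβ'0,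
      mul_nonneg (mul_nonneg hC.le hCG) hβ'0]
  rcases hx with rfl | rfl
  · exact key _ x₁ C₁ hC₁ (by simp [C]; linarith [le_max_left C₁ C₂]) d₁ n₁
  · exact key _ x₂ C₂ hC₂ (by simp [C]; linarith [le_max_right C₁ C₂]) d₂ n₂

/-- Group words as words in the letters. -/
theorem word_letters (S : System A H) (h : FreeGroup (Fin 3)) :
    ∃ W : List (Atom S), NoQ W ∧ ∀ (s : A × A) (hs : s.1 ∈ unitary A),
      (wordHom ![S.u0, (⟨s.1, hs⟩ : unitary A), S.u2] h : A) = ev s W := by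
  have hc : ‖(S.u0 : A)‖ ≤ 1 := norm_unit_le S.toStd S.u0.2
  induction h using FreeGroup.induction_on with
  | C1 => exact ⟨[], by simp [NoQ], fun s hs => by simp⟩
  | of i =>
    fin_cases i
    · exact ⟨[Atom.d ⟨(S.u0 : A), S.u0_mem, hc⟩], by simp [NoQ],
        fun s hs => by simp [wordHom, Atom.val]⟩
    · exact ⟨[Atom.u], by simp [NoQ], fun s hs => by simp [wordHom, Atom.val]⟩
    · exact ⟨[Atom.v], by simp [NoQ], fun s hs => by simp [wordHom, Atom.val]⟩
  | inv_of i _ =>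
    fin_cases i
    · exact ⟨[Atom.d ⟨star (S.u0 : A), star_mem S.u0_mem, by rw [norm_star]; exact hc⟩],
        by simp [NoQ], fun s hs => by simp [wordHom, Atom.val, ← Unitary.star_eq_inv]⟩
    · exact ⟨[Atom.ui], by simp [NoQ],
        fun s hs => by simp [wordHom, Atom.val, ← Unitary.star_eq_inv]⟩
    · exact ⟨[Atom.vi], by simp [NoQ],
        fun s hs => by simp [wordHom, Atom.val, ← Unitary.star_eq_inv]⟩
  | mul g g' ihg ihg' =>
    obtain ⟨W, hW, eW⟩ := ihg
    obtain ⟨W', hW', eW'⟩ := ihg'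
    refine ⟨W ++ W', fun l hl => ?_, fun s hs => ?_⟩
    · rcases List.mem_append.1 hl with hl | hl
      exacts [hW l hl, hW' l hl]
    · rw [map_mul, Submonoid.coe_mul, eW s hs, eW' s hs, ev_append]

/-- **The limit.** -/
theorem limit (hI : InvarianceSpec) (hS : StaticSpec) (hF : FlowSpec) : LimitSpec := by
  intro A _ H _ _ S
  let St := {p : (A × A) × ℝ // Good S p.1 ∧ 0 < p.2}
  have hstep : ∀ (m : ℕ) (p : St), ∃ p' : St, p'.1.2 ≤ p.1.2 / 2 ∧
      ‖S.ι (p'.1.1.1 - p.1.1.1)‖ ≤ p.1.2 ∧ Decodes S p'.1.1 p'.1.2 ((1 / 2) ^ m) := by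
    rintro m ⟨⟨s, β⟩, hs, hβ⟩
    obtain ⟨s', β', h1, h2, h3, h4, h5⟩ :=
      stage hI hS hF s hs β hβ ((1 / 2) ^ m) (by positivity)
    exact ⟨⟨(s', β'), h1, h2⟩, h3, h4, h5⟩
  choose step hstep using hstep
  have hbase : Good S (base S) := by
    refine ⟨⟨S.u1.2, S.q_star, fun W => rfl⟩, ?_, ?_⟩
    exacts [fst_mem_alg S (base S), snd_mem_alg S (base S)]
  let p : ℕ → St := Nat.rec ⟨(base S, 1), hbase, one_pos⟩ step
  set w : ℕ → A := fun m => (p m).1.1.1 with hwdef
  set β : ℕ → ℝ := fun m => (p m).1.2 with hβdef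
  have hw : ∀ m, w m ∈ unitary A := fun m => (p m).2.1.1.unit
  have hβ0 : ∀ m, 0 < β m := fun m => (p m).2.2
  have hsucc : ∀ m, β (m + 1) ≤ β m / 2 ∧ ‖S.ι (w (m + 1) - w m)‖ ≤ β m ∧
      Decodes S (p (m + 1)).1.1 (β (m + 1)) ((1 / 2) ^ m) := fun m => hstep m (p m)
  have hβgeo : ∀ m, β m ≤ (1 / 2) ^ m := by
    intro m
    induction m with
    | zero => simp [hβdef, p]
    | succ m ih => rw [pow_succ]; linarith [(hsucc m).1]
  have hdist : ∀ m j, ‖S.ι (w (m + j) - w m)‖ ≤ 2 * β m - 2 * β (m + j) := by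
    intro m j
    induction j with
    | zero => simp
    | succ j ih =>
      rw [← add_assoc, show w (m + j + 1) - w m = (w (m + j + 1) - w (m + j)) + (w (m + j) - w m) by
        abel, map_add]
      linarith [norm_add_le (S.ι (w (m + j + 1) - w (m + j))) (S.ι (w (m + j) - w m)),
        (hsucc (m + j)).1, (hsucc (m + j)).2.1]
  have hcau : CauchySeq fun m => S.ι (w m) := by
    refine cauchySeq_of_le_geometric (1 / 2) 1 (by norm_num) fun m => ?_
    rw [dist_eq_norm, norm_sub_rev, ← map_sub, one_mul]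
    exact (hsucc m).2.1.trans (hβgeo m)
  obtain ⟨a, ha1, hlim⟩ := S.complete w (fun m => norm_unit_le S.toStd (hw m)) hcau
  have hclose : ∀ m, ‖S.ι (a - w m)‖ ≤ 2 * β m := by
    intro m
    have ht : Filter.Tendsto (fun j => ‖S.ι (w (m + j) - w m)‖) Filter.atTop
        (nhds ‖S.ι (a - w m)‖) := by
      simp only [map_sub]
      refine ((hlim.comp ?_).sub_const _).norm
      exact Filter.tendsto_atTop_mono (fun j => Nat.le_add_left j m) Filter.tendsto_id
    exact le_of_tendsto' ht fun j => (hdist m j).trans (by linarith [hβ0 (m + j)])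
  have hsmall : ∀ x : ℝ, (∀ m : ℕ, x ≤ 5 * (1 / 2) ^ m) → x ≤ 0 := by
    intro x hx
    have ht := (tendsto_pow_atTop_nhds_zero_of_lt_one (by norm_num : (0 : ℝ) ≤ 1 / 2)
      (by norm_num)).const_mul (5 : ℝ)
    rw [mul_zero] at ht
    exact ge_of_tendsto' ht hx
  have hunit : a ∈ unitary A := by
    rw [Unitary.mem_iff]
    constructor <;> rw [← sub_eq_zero] <;> apply S.faithful <;> rw [← norm_eq_zero] <;>
      refine le_antisymm (hsmall _ fun m => ?_) (norm_nonneg _)
    all_goals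
      have hb := hclose m
      have hg := hβgeo m
      have hn := norm_unit_le S.toStd (hw m)
      have hpos : (0 : ℝ) ≤ (1 / 2) ^ m := by positivity
    · rw [← (Unitary.mem_iff.1 (hw m)).1]
      refine (nrm_mul_sub S.toStd (star (w m)) (w m) (star a) a).trans ?_
      rw [← star_sub, nrm_star S.toStd, norm_star]
      nlinarith [norm_nonneg (S.ι (a - w m))]
    · rw [← (Unitary.mem_iff.1 (hw m)).2]
      refine (nrm_mul_sub S.toStd (w m) (star (w m)) a (star a)).trans ?_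
      rw [← star_sub, nrm_star S.toStd, norm_star]
      nlinarith [norm_nonneg (S.ι (a - w m))]
  refine ⟨⟨a, hunit⟩, ?_, ?_⟩
  · intro h
    obtain ⟨W, hW, eW⟩ := word_letters S h
    have e : (wordHom ![S.u0, S.u1, S.u2] h : A) = ev (base S) W := eW (base S) S.u1.2
    rw [eW (a, 0) hunit, e, ← sub_eq_zero, ← norm_eq_zero]
    refine le_antisymm ?_ (norm_nonneg _)
    have key : ∀ m, ‖S.τ (ev (a, (0 : A)) W) - S.τ (ev (base S) W)‖ ≤
        W.length * (2 * (1 / 2) ^ m) := by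
      intro m
      rw [← (p m).2.1.1.law W, ← τ_sub S.toStd]
      refine (abs_τ_le S.toStd _).trans ((ev_lip hunit (hw m) hW).trans ?_)
      exact mul_le_mul_of_nonneg_left ((hclose m).trans (by linarith [hβgeo m]))
        (Nat.cast_nonneg _)
    have ht := ((tendsto_pow_atTop_nhds_zero_of_lt_one (by norm_num : (0 : ℝ) ≤ 1 / 2)
      (by norm_num)).const_mul (2 : ℝ)).const_mul (W.length : ℝ)
    rw [mul_zero, mul_zero] at ht
    exact ge_of_tendsto' ht key
  · intro K hK h1 hinv x hx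
    let M : StarSubalgebra ℂ A :=
      { carrier := {b | ∀ y, S.ι y ∈ K → S.ι (b * y) ∈ K ∧ S.ι (star b * y) ∈ K}
        mul_mem' := fun {b c} hb hc y hy => by
          refine ⟨?_, ?_⟩
          · rw [mul_assoc]; exact (hb _ (hc y hy).1).1
          · rw [star_mul, mul_assoc]; exact (hc _ (hb y hy).2).2
        one_mem' := fun y hy => by simpa using hy
        add_mem' := fun {b c} hb hc y hy => by
          simp only [add_mul, star_add, map_add]
          exact ⟨K.add_mem (hb y hy).1 (hc y hy).1, K.add_mem (hb y hy).2 (hc y hy).2⟩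
        zero_mem' := fun y hy => by simp
        algebraMap_mem' := fun r y hy => by
          simp only [Algebra.algebraMap_eq_smul_one, star_smul, star_one, smul_mul_assoc, one_mul,
            map_smul]
          exact ⟨K.smul_mem _ hy, K.smul_mem _ hy⟩
        star_mem' := fun {b} hb y hy => by
          rw [star_star]; exact (hb y hy).symm }
    have hMmem : ∀ b, b ∈ M ↔ ∀ y, S.ι y ∈ K → S.ι (b * y) ∈ K ∧ S.ι (star b * y) ∈ K :=
      fun _ => Iff.rfl
    have hMcl : IsClosed (M : Set A) := by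
      have e : (M : Set A) = ⋂ y, ⋂ (_ : S.ι y ∈ K),
          ((fun b => ιL S.toStd (b * y)) ⁻¹' K) ∩ ((fun b => ιL S.toStd (star b * y)) ⁻¹' K) := by
        ext b; simp [hMmem]
      rw [e]
      exact isClosed_iInter fun y => isClosed_iInter fun _ =>
        (hK.preimage (by fun_prop)).inter (hK.preimage (by fun_prop))
    have hgen : ∀ b ∈ (S.D : Set A) ∪ {(a : A), (S.u2 : A)}, b ∈ M := by
      intro b hb
      rw [hMmem]
      intro y hy
      rcases hb with hb | rfl | rfl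
      · exact ⟨hinv _ (Or.inl hb) y hy, hinv _ (Or.inl (star_mem hb)) y hy⟩
      · exact ⟨hinv _ (Or.inr (Or.inl rfl)) y hy, hinv _ (Or.inr (Or.inr (Or.inl rfl))) y hy⟩
      · exact ⟨hinv _ (Or.inr (Or.inr (Or.inr (Or.inl rfl)))) y hy,
          hinv _ (Or.inr (Or.inr (Or.inr (Or.inr rfl)))) y hy⟩
    have hsub : alg₁ S a ≤ M := by
      refine StarSubalgebra.topologicalClosure_minimal (StarAlgebra.adjoin_le ?_) hMcl
      rintro b (hb | rfl | rfl)
      exacts [hgen _ (Or.inl hb), hgen _ (Or.inr (Or.inr rfl)), hgen _ (Or.inr (Or.inl rfl))]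
    have htarget : ∀ b ∈ ({(S.u1 : A), S.q} : Set A), b ∈ M := by
      intro b hb
      rw [hMmem]
      intro y hy
      have happ : ∀ m, ∃ c ∈ M, ‖S.ι (b - c)‖ ≤ 5 * (1 / 2) ^ m := by
        intro m
        obtain ⟨c, hc, hd⟩ := (hsucc m).2.2 a hunit (hclose (m + 1)) b hb
        exact ⟨c, hsub hc, hd⟩
      choose c hc hd using happ
      have ht : Filter.Tendsto (fun m : ℕ => ‖y‖ * (5 * (1 / 2 : ℝ) ^ m)) Filter.atTop (nhds 0) := by
        simpa using ((tendsto_pow_atTop_nhds_zero_of_lt_one (by norm_num : (0 : ℝ) ≤ 1 / 2)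
          (by norm_num)).const_mul (5 : ℝ)).const_mul ‖y‖
      constructor
      · refine hK.mem_of_tendsto (b := Filter.atTop) (f := fun m => S.ι (c m * y)) ?_
          (.of_forall fun m => ((hMmem _).1 (hc m) y hy).1)
        rw [tendsto_iff_norm_sub_tendsto_zero]
        refine squeeze_zero (fun m => norm_nonneg _) (fun m => ?_) ht
        rw [← map_sub, ← sub_mul]
        refine (S.right_le _ _).trans (mul_le_mul_of_nonneg_left ?_ (norm_nonneg _))
        rw [map_sub, norm_sub_rev, ← map_sub]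
        exact hd m
      · refine hK.mem_of_tendsto (b := Filter.atTop) (f := fun m => S.ι (star (c m) * y)) ?_
          (.of_forall fun m => ((hMmem _).1 (hc m) y hy).2)
        rw [tendsto_iff_norm_sub_tendsto_zero]
        refine squeeze_zero (fun m => norm_nonneg _) (fun m => ?_) ht
        rw [← map_sub, ← sub_mul, ← star_sub]
        refine (S.right_le _ _).trans (mul_le_mul_of_nonneg_left ?_ (norm_nonneg _))
        rw [nrm_star S.toStd, map_sub, norm_sub_rev, ← map_sub]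
        exact hd m
    have hall : (StarAlgebra.adjoin ℂ
        ((S.D : Set A) ∪ {(S.u1 : A), (S.u2 : A), S.q})).topologicalClosure ≤ M := by
      refine StarSubalgebra.topologicalClosure_minimal (StarAlgebra.adjoin_le ?_) hMcl
      rintro b (hb | rfl | rfl | rfl)
      exacts [hgen _ (Or.inl hb), htarget _ (Or.inl rfl), hgen _ (Or.inr (Or.inr rfl)),
        htarget _ (Or.inr rfl)]
    simpa using ((hMmem x).1 (hall hx) 1 h1).1

end VP086.Lim
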