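import Vale.Agent.P086.System

/-!
P086: the derivation attached to one word and one piece of the frame, written on formal words.
-/

namespace VP086

/-! ### The words, in any monoid -/

/-- `∏_{r=i}^{i+k-1} (b^(r+1) a)`. -/
def blk {M : Type} [Monoid M] (a b : M) : ℕ → ℕ → M
  | _, 0 => 1
  | i, k + 1 => b ^ (i + 1) * a * blk a b (i + 1) k

/-- The word `∏_{r<L} (b^(r+1) a)`. -/
def wrd {M : Type} [Monoid M] (a b : M) (L : ℕ) : M := blk a b 0 L

/-- The prefix of the word before its `j`-th `a` (counted from zero). -/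
def pre {M : Type} [Monoid M] (a b : M) (j : ℕ) : M := blk a b 0 j * b ^ (j + 1)

/-- The suffix of the word starting with its `j`-th `a`. -/
def suf {M : Type} [Monoid M] (a b : M) (L j : ℕ) : M := a * blk a b (j + 1) (L - j - 1)

variable {A : Type} [CStarAlgebra A] {H : Type} [NormedAddCommGroup H] [InnerProductSpace ℂ H]

/-- The constants: elements of `D` of norm at most one. -/
abbrev Const (S : System A H) : Type := {a : A // a ∈ S.D ∧ ‖a‖ ≤ 1}

/-- The letters. -/
inductive Atom (S : System A H) : Type
  | d (c : Const S)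
  | u
  | ui
  | v
  | vi
  | q

variable {S : System A H}

/-- Formal linear combinations of words. -/
abbrev Comb (S : System A H) : Type := List (ℂ × List (Atom S))

/-- The adjoint of a letter. -/
def Atom.adj : Atom S → Atom S
  | .d c => .d ⟨star c.1, star_mem c.2.1, by rw [norm_star]; exact c.2.2⟩
  | .u => .ui
  | .ui => .u
  | .v => .vi
  | .vi => .v
  | .q => .q

/-- The adjoint of a word. -/
def adjW (W : List (Atom S)) : List (Atom S) := (W.map Atom.adj).reverse

/-- The adjoint of a combination. -/
def adjC (l : Comb S) : Comb S := l.map fun p => (starRingEnd ℂ p.1, adjW p.2)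

/-- The value of a letter at a state `(u, q)`. -/
def Atom.val (s : A × A) : Atom S → A
  | .d c => c.1
  | .u => s.1
  | .ui => star s.1
  | .v => (S.u2 : A)
  | .vi => star (S.u2 : A)
  | .q => s.2

/-- The value of a word. -/
def ev (s : A × A) (W : List (Atom S)) : A := (W.map (Atom.val s)).prod

/-- The value of a combination. -/
def tot (s : A × A) (l : Comb S) : A := (l.map fun p => p.1 • ev s p.2).sum

/-- The original state. -/
def base (S : System A H) : A × A := ((S.u1 : A), S.q)

/-- A state with the law of the original one. -/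
structure Law (S : System A H) (s : A × A) : Prop where
  unit : s.1 ∈ unitary A
  sa : star s.2 = s.2
  law : ∀ W : List (Atom S), S.τ (ev s W) = S.τ (ev (base S) W)

/-- Orthogonal projections of equal trace summing to one. -/
structure Arcs (S : System A H) (K : ℕ) where
  p : Fin K → Const S
  star_p : ∀ i, star (p i).1 = (p i).1
  mul_p : ∀ i j, (p i).1 * (p j).1 = if i = j then (p i).1 else 0
  sum_p : ∑ i, (p i).1 = 1
  tau_p : ∀ i, S.τ (p i).1 = 1 / K

/-- The list of pairs of the piece `(a, b)`. -/
def Arcs.pairs {K : ℕ} (P : Arcs S K) (a b : Fin K) : List (Const S × Const S) :=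
  if a = b then [(P.p a, P.p a)] else [(P.p a, P.p b), (P.p b, P.p a)]

/-- Compression to a piece. -/
def cmp (pr : List (Const S × Const S)) (x : A) : A := (pr.map fun p => p.1.1 * x * p.2.1).sum

/-- The three words as lists of letters. -/
def aWrd (S : System A H) (L : ℕ) : List (Atom S) :=
  (wrd (FreeMonoid.of (Atom.u : Atom S)) (FreeMonoid.of Atom.v) L).toList

/-- The prefixes as lists of letters. -/
def aPre (S : System A H) (j : ℕ) : List (Atom S) :=
  (pre (FreeMonoid.of (Atom.u : Atom S)) (FreeMonoid.of Atom.v) j).toList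

/-- The suffixes as lists of letters. -/
def aSuf (S : System A H) (L j : ℕ) : List (Atom S) :=
  (suf (FreeMonoid.of (Atom.u : Atom S)) (FreeMonoid.of Atom.v) L j).toList

/-- `1/√2`. -/
noncomputable def lam : ℂ := ((Real.sqrt 2)⁻¹ : ℝ)

/-- `1/(√2 L)`. -/
noncomputable def kap (L : ℕ) : ℂ := ((Real.sqrt 2 * L)⁻¹ : ℝ)

/-- The piece of `q`. -/
def yC (pr : List (Const S × Const S)) : Comb S :=
  pr.map fun p => (1, [Atom.d p.1, Atom.q, Atom.d p.2])

/-- The compression of `g = (w + w⁻¹)/√2`. -/
noncomputable def gC (pr : List (Const S × Const S)) (L : ℕ) : Comb S :=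
  pr.flatMap fun p => [(lam, [Atom.d p.1] ++ aWrd S L ++ [Atom.d p.2]),
    (lam, [Atom.d p.1] ++ adjW (aWrd S L) ++ [Atom.d p.2])]

/-- The skew element moving `u`. -/
noncomputable def xC (pr : List (Const S × Const S)) (L : ℕ) : Comb S :=
  (List.range L).flatMap fun j => pr.flatMap fun p =>
    [(kap L, adjW (aPre S j) ++ [Atom.d p.1, Atom.q, Atom.d p.2] ++ adjW (aSuf S L j)),
      (-kap L, aSuf S L j ++ [Atom.d p.1, Atom.q, Atom.d p.2] ++ aPre S j)]

/-- The derivation on a letter. -/
noncomputable def datom (pr : List (Const S × Const S)) (L : ℕ) : Atom S → Comb S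
  | .u => (xC pr L).map fun p => (p.1, p.2 ++ [Atom.u])
  | .ui => adjC ((xC pr L).map fun p => (p.1, p.2 ++ [Atom.u]))
  | .q => (gC pr L).map fun p => (-p.1, p.2)
  | _ => []

/-- The derivation on a word. -/
noncomputable def dev (pr : List (Const S × Const S)) (L : ℕ) : List (Atom S) → Comb S
  | [] => []
  | l :: W => (datom pr L l).map (fun p => (p.1, p.2 ++ W)) ++
      (dev pr L W).map fun p => (p.1, l :: p.2)

/-- The derivation on a combination. -/
noncomputable def devC (pr : List (Const S × Const S)) (L : ℕ) (l : Comb S) : Comb S :=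
  l.flatMap fun p => (dev pr L p.2).map fun r => (p.1 * r.1, r.2)

/-- The vector field. -/
noncomputable def field (pr : List (Const S × Const S)) (L : ℕ) (s : A × A) : A × A :=
  (tot s (xC pr L) * s.1, -tot s (gC pr L))

/-! ### What the three modules deliver -/

/-- The trace kills the derivation at the original state. -/
def InvarianceSpec : Prop :=
  ∀ (A : Type) [CStarAlgebra A] (H : Type) [NormedAddCommGroup H] [InnerProductSpace ℂ H]
    (S : System A H) (K : ℕ) (P : Arcs S K) (a b : Fin K) (L : ℕ), 0 < L →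
    ∀ W : List (Atom S), S.τ (tot (base S) (dev (P.pairs a b) L W)) = 0

/-- The norms of the field and of the defect of the rotation. -/
def StaticSpec : Prop :=
  ∀ (A : Type) [CStarAlgebra A] (H : Type) [NormedAddCommGroup H] [InnerProductSpace ℂ H]
    (S : System A H) (K : ℕ) (P : Arcs S K) (a b : Fin K) (L : ℕ), 0 < L →
    (∀ s : A × A, star s.2 = s.2 →
      star (tot s (xC (P.pairs a b) L)) = -tot s (xC (P.pairs a b) L)) ∧
    ∀ s : A × A, Law S s →
      ‖S.ι (tot s (xC (P.pairs a b) L))‖ ≤ 4 / (K * Real.sqrt L) ∧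
      tot s (devC (P.pairs a b) L (yC (P.pairs a b))) = -tot s (gC (P.pairs a b) L) ∧
      ‖S.ι (tot s (devC (P.pairs a b) L (gC (P.pairs a b) L)) - tot s (yC (P.pairs a b)))‖ ≤
        30 / (K : ℝ) ^ 2

/-- The flow of the field preserves the law and is reversible. -/
def FlowSpec : Prop :=
  ∀ (A : Type) [CStarAlgebra A] (H : Type) [NormedAddCommGroup H] [InnerProductSpace ℂ H]
    (S : System A H) (K : ℕ) (P : Arcs S K) (a b : Fin K) (L : ℕ), 0 < L →
    (∀ W : List (Atom S), S.τ (tot (base S) (dev (P.pairs a b) L W)) = 0) →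
    (∀ s : A × A, star s.2 = s.2 →
      star (tot s (xC (P.pairs a b) L)) = -tot s (xC (P.pairs a b) L)) →
    ∀ s : A × A, Law S s →
    ∃ x : ℝ → A × A, x 0 = s ∧
      (∀ t ∈ Set.Icc (0 : ℝ) (Real.pi / 2), Law S (x t) ∧
        HasDerivWithinAt x (field (P.pairs a b) L (x t)) (Set.Icc 0 (Real.pi / 2)) t ∧
        ∀ W : List (Atom S), HasDerivWithinAt (fun r => ev (x r) W)
          (tot (x t) (dev (P.pairs a b) L W)) (Set.Icc 0 (Real.pi / 2)) t) ∧
      ∀ r ∈ Set.Icc (0 : ℝ) (Real.pi / 2),
        s.1 ∈ (StarAlgebra.adjoin ℂ ((S.D : Set A) ∪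
          {(S.u2 : A), (x r).1, (x r).2})).topologicalClosure ∧
        s.2 ∈ (StarAlgebra.adjoin ℂ ((S.D : Set A) ∪
          {(S.u2 : A), (x r).1, (x r).2})).topologicalClosure

/-! ### Elementary rules -/

theorem ev_append (s : A × A) (U V : List (Atom S)) : ev s (U ++ V) = ev s U * ev s V := by
  simp [ev]

@[simp] theorem ev_nil (s : A × A) : ev (S := S) s [] = 1 := rfl

@[simp] theorem ev_cons (s : A × A) (l : Atom S) (W : List (Atom S)) :
    ev s (l :: W) = l.val s * ev s W := by simp [ev]

@[simp] theorem tot_nil (s : A × A) : tot s ([] : Comb S) = 0 := rfl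

@[simp] theorem tot_cons (s : A × A) (p : ℂ × List (Atom S)) (l : Comb S) :
    tot s (p :: l) = p.1 • ev s p.2 + tot s l := by simp [tot]

theorem tot_append (s : A × A) (l l' : Comb S) : tot s (l ++ l') = tot s l + tot s l' := by
  simp [tot]

theorem val_adj (s : A × A) (hq : star s.2 = s.2) (l : Atom S) :
    l.adj.val s = star (l.val s) := by
  cases l <;> simp [Atom.adj, Atom.val, hq]

theorem ev_adjW (s : A × A) (hq : star s.2 = s.2) (W : List (Atom S)) :
    ev s (adjW W) = star (ev s W) := by
  induction W with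
  | nil => simp [adjW]
  | cons l W ih =>
    rw [adjW, List.map_cons, List.reverse_cons, ev_append, ← adjW, ih, ev_cons, ev_cons, ev_nil,
      mul_one, star_mul, val_adj s hq]

theorem tot_adjC (s : A × A) (hq : star s.2 = s.2) (l : Comb S) :
    tot s (adjC l) = star (tot s l) := by
  induction l with
  | nil => simp [adjC]
  | cons p l ih =>
    rw [adjC, List.map_cons, tot_cons, ← adjC, ih, tot_cons, star_add, star_smul, ev_adjW s hq,
      starRingEnd_apply]

theorem tot_map_right (s : A × A) (l : Comb S) (W : List (Atom S)) :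
    tot s (l.map fun p => (p.1, p.2 ++ W)) = tot s l * ev s W := by
  induction l with
  | nil => simp
  | cons p l ih => rw [List.map_cons, tot_cons, ih, tot_cons, add_mul, ev_append, smul_mul_assoc]

theorem tot_map_left (s : A × A) (l : Comb S) (W : List (Atom S)) :
    tot s (l.map fun p => (p.1, W ++ p.2)) = ev s W * tot s l := by
  induction l with
  | nil => simp
  | cons p l ih => rw [List.map_cons, tot_cons, ih, tot_cons, mul_add, ev_append, mul_smul_comm]

theorem tot_map_scale (s : A × A) (l : Comb S) (c : ℂ) :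
    tot s (l.map fun p => (c * p.1, p.2)) = c • tot s l := by
  induction l with
  | nil => simp
  | cons p l ih => rw [List.map_cons, tot_cons, ih, tot_cons, smul_add, smul_smul]

end VP086
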