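import Mathlib

/-!
P086: the group von Neumann algebra.
-/

open scoped lp ENNReal

namespace VP086

variable (G : Type) [Group G]

/-- The Hilbert space `ℓ²(G)`. -/
abbrev GroupL2 : Type := lp (fun _ : G => ℂ) 2

/-- The operators `λ g`, characterised by their values on the point masses. -/
def leftTranslations : Set (GroupL2 G →L[ℂ] GroupL2 G) := by
  classical
  exact {T | ∃ g : G, ∀ h : G, T (lp.single 2 h (1 : ℂ)) = lp.single 2 (g * h) 1}

/-- The group von Neumann algebra `λ(G)''`. -/
noncomputable def groupVN : StarSubalgebra ℂ (GroupL2 G →L[ℂ] GroupL2 G) :=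
  StarSubalgebra.centralizer ℂ
    (StarSubalgebra.centralizer ℂ (leftTranslations G) : Set (GroupL2 G →L[ℂ] GroupL2 G))

/-- The answer to the rank question: two free group factors of different rank are isomorphic. -/
def Target : Prop :=
  ∃ m n : ℕ, 2 ≤ m ∧ 2 ≤ n ∧ m ≠ n ∧
    Nonempty (groupVN (FreeGroup (Fin m)) ≃⋆ₐ[ℂ] groupVN (FreeGroup (Fin n)))

end VP086
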