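import Vale.Agent.P086.Defs

/-!
P086: elementary facts about the two-norm `‖ι x‖`, values of words and the Cayley transform.
-/

open scoped InnerProductSpace
open Complex (I)

namespace VP086.Lim

variable {A : Type} [CStarAlgebra A] {H : Type} [NormedAddCommGroup H] [InnerProductSpace ℂ H]

section Std

variable (S : Std A H)

theorem inner_eq (x y : A) : ⟪S.ι x, S.ι y⟫_ℂ = S.τ (star x * y) := S.inner_ι x y

theorem norm_le (x : A) : ‖S.ι x‖ ≤ ‖x‖ := by simpa [S.norm_one] using S.left_le x 1

theorem nrm_star (x : A) : ‖S.ι (star x)‖ = ‖S.ι x‖ := by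
  rw [@norm_eq_sqrt_re_inner ℂ, @norm_eq_sqrt_re_inner ℂ _ _ _ _ (S.ι x), inner_eq, inner_eq,
    star_star]
  simp only [Std.τ]
  rw [S.tau_comm]

theorem nrm_mul_unit {u : A} (hu : u ∈ unitary A) (x : A) : ‖S.ι (u * x)‖ = ‖S.ι x‖ := by
  rw [@norm_eq_sqrt_re_inner ℂ, @norm_eq_sqrt_re_inner ℂ _ _ _ _ (S.ι x), inner_eq, inner_eq,
    star_mul, mul_assoc, ← mul_assoc (star u), Unitary.star_mul_self_of_mem hu, one_mul]

theorem abs_τ_le (x : A) : ‖S.τ x‖ ≤ ‖S.ι x‖ := by
  simpa [Std.τ, S.norm_one] using norm_inner_le_norm (𝕜 := ℂ) (S.ι 1) (S.ι x)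

theorem nrm_mul_sub (a b x y : A) :
    ‖S.ι (x * y - a * b)‖ ≤ ‖y‖ * ‖S.ι (x - a)‖ + ‖a‖ * ‖S.ι (y - b)‖ := by
  rw [show x * y - a * b = (x - a) * y + a * (y - b) by
    rw [sub_mul, mul_sub]; abel, map_add]
  exact (norm_add_le _ _).trans (add_le_add (S.right_le _ _) (S.left_le _ _))

theorem τ_sub (x y : A) : S.τ (x - y) = S.τ x - S.τ y := by
  simp [Std.τ, map_sub, inner_sub_right]

/-- `ι` as a continuous linear map. -/
noncomputable def ιL : A →L[ℂ] H := S.ι.mkContinuous 1 fun x => by simpa using norm_le S x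

@[simp] theorem ιL_apply (x : A) : ιL S x = S.ι x := rfl

theorem nontrivial_of_std (S : Std A H) : Nontrivial A := by
  refine ⟨⟨1, 0, fun h => ?_⟩⟩
  have := S.norm_one
  rw [h, map_zero, norm_zero] at this
  exact zero_ne_one this

theorem norm_unit_le (S : Std A H) {u : A} (hu : u ∈ unitary A) : ‖u‖ ≤ 1 := by
  have := nontrivial_of_std S
  exact (CStarRing.norm_of_mem_unitary hu).le

end Std

variable {S : System A H}

/-- No letter `q`. -/
def NoQ (W : List (Atom S)) : Prop := ∀ l ∈ W, l ≠ Atom.q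

theorem norm_val_le {s : A × A} (hs : s.1 ∈ unitary A) (l : Atom S) (hl : l ≠ Atom.q) :
    ‖l.val s‖ ≤ 1 := by
  cases l with
  | d c => exact c.2.2
  | u => exact norm_unit_le S.toStd hs
  | ui => simpa [Atom.val] using norm_unit_le S.toStd hs
  | v => exact norm_unit_le S.toStd S.u2.2
  | vi => simpa [Atom.val] using norm_unit_le S.toStd S.u2.2
  | q => exact absurd rfl hl

theorem norm_ev_le {s : A × A} (hs : s.1 ∈ unitary A) {W : List (Atom S)} (hW : NoQ W) :
    ‖ev s W‖ ≤ 1 := by
  induction W with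
  | nil => exact norm_unit_le S.toStd (one_mem _)
  | cons l W ih =>
    rw [ev_cons]
    exact (norm_mul_le _ _).trans (mul_le_one₀ (norm_val_le hs l (hW l (by simp)))
      (norm_nonneg _) (ih fun m hm => hW m (List.mem_cons_of_mem _ hm)))

theorem ev_lip {s s' : A × A} (hs : s.1 ∈ unitary A) (hs' : s'.1 ∈ unitary A)
    {W : List (Atom S)} (hW : NoQ W) :
    ‖S.ι (ev s W - ev s' W)‖ ≤ W.length * ‖S.ι (s.1 - s'.1)‖ := by
  induction W with
  | nil => simp
  | cons l W ih =>
    have hl : l ≠ Atom.q := hW l (by simp)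
    have hW' : NoQ W := fun m hm => hW m (List.mem_cons_of_mem _ hm)
    have hd : ‖S.ι (l.val s - l.val s')‖ ≤ ‖S.ι (s.1 - s'.1)‖ := by
      cases l with
      | u => exact le_rfl
      | ui => simp only [Atom.val]; rw [← star_sub, nrm_star S.toStd]
      | d c => simp [Atom.val]
      | v => simp [Atom.val]
      | vi => simp [Atom.val]
      | q => exact absurd rfl hl
    rw [ev_cons, ev_cons, List.length_cons]
    push_cast
    have h1 : ‖ev s W‖ * ‖S.ι (l.val s - l.val s')‖ ≤ 1 * ‖S.ι (s.1 - s'.1)‖ :=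
      mul_le_mul (norm_ev_le hs hW') hd (norm_nonneg _) zero_le_one
    have h2 : ‖l.val s'‖ * ‖S.ι (ev s W - ev s' W)‖ ≤ 1 * (W.length * ‖S.ι (s.1 - s'.1)‖) :=
      mul_le_mul (norm_val_le hs' l hl) (ih hW') (norm_nonneg _) zero_le_one
    linarith [nrm_mul_sub S.toStd (l.val s') (ev s' W) (l.val s) (ev s W)]

theorem ev_mem {B : StarSubalgebra ℂ A} (hD : (S.D : Set A) ⊆ B) (h2 : (S.u2 : A) ∈ B)
    {s : A × A} (hs : s.1 ∈ B) {W : List (Atom S)} (hW : NoQ W) : ev s W ∈ B := by
  induction W with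
  | nil => simp
  | cons l W ih =>
    rw [ev_cons]
    refine mul_mem ?_ (ih fun m hm => hW m (List.mem_cons_of_mem _ hm))
    cases l with
    | d c => exact hD c.2.1
    | u => exact hs
    | ui => exact star_mem hs
    | v => exact h2
    | vi => exact star_mem h2
    | q => exact absurd rfl (hW _ (by simp))

/-! ### The Cayley transform -/

/-- The resolvent at `-i`. -/
noncomputable def rsv (T : A) : A := Ring.inverse (T + I • 1)

/-- The Cayley transform. -/
noncomputable def cay (T : A) : A := 1 - (2 * I) • rsv T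

theorem isUnit_add_I {T : A} (hT : star T = T) {z : ℂ} (hz : z.im ≠ 0) : IsUnit (T + z • 1) := by
  have h : -z ∉ spectrum ℂ T := fun h => hz (by
    simpa using IsSelfAdjoint.im_eq_zero_of_mem_spectrum hT h)
  rw [spectrum.notMem_iff, Algebra.algebraMap_eq_smul_one] at h
  have := h.neg
  rwa [show -((-z) • (1 : A) - T) = T + z • 1 by rw [neg_smul]; abel] at this

theorem rsv_left {T : A} (hT : star T = T) : rsv T * (T + I • 1) = 1 :=
  Ring.inverse_mul_cancel _ (isUnit_add_I hT (by simp))

theorem rsv_right {T : A} (hT : star T = T) : (T + I • 1) * rsv T = 1 :=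
  Ring.mul_inverse_cancel _ (isUnit_add_I hT (by simp))

theorem cay_unitary {T : A} (hT : star T = T) : cay T ∈ unitary A := by
  set R := rsv T
  set R' := star R
  have r1 : (T - I • 1) * R' = 1 := by
    have := congrArg star (rsv_left hT)
    simpa [star_mul, hT, sub_eq_add_neg] using this
  have r2 : R' * (T - I • 1) = 1 := by
    have := congrArg star (rsv_right hT)
    simpa [star_mul, hT, sub_eq_add_neg] using this
  have hd : (T + I • (1 : A)) - (T - I • 1) = (2 * I) • 1 := by
    rw [two_mul, add_smul]; abel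
  have e1 : R' - R = (2 * I) • (R' * R) := by
    calc R' - R = R' * (T + I • 1) * R - R' * (T - I • 1) * R := by
          rw [mul_assoc R' (T + I • 1), rsv_right hT, mul_one, r2, one_mul]
      _ = R' * ((T + I • 1) - (T - I • 1)) * R := by rw [← sub_mul, ← mul_sub]
      _ = _ := by rw [hd, mul_smul_comm, mul_one, smul_mul_assoc]
  have e2 : R' - R = (2 * I) • (R * R') := by
    calc R' - R = R * (T + I • 1) * R' - R * (T - I • 1) * R' := by
          rw [mul_assoc R (T - I • 1), r1, mul_one, rsv_left hT, one_mul]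
      _ = R * ((T + I • 1) - (T - I • 1)) * R' := by rw [← sub_mul, ← mul_sub]
      _ = _ := by rw [hd, mul_smul_comm, mul_one, smul_mul_assoc]
  have hs : star (cay T) = 1 + (2 * I) • R' := by
    simp [cay, R', R, neg_smul, sub_eq_add_neg]
  rw [Unitary.mem_iff, hs, cay]
  constructor
  · calc (1 + (2 * I) • R') * (1 - (2 * I) • R)
        = 1 + (2 * I) • (R' - R) - (2 * I) • ((2 * I) • (R' * R)) := by
          simp only [add_mul, mul_sub, one_mul, mul_one, smul_mul_assoc, mul_smul_comm, smul_sub,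
            smul_add]
          abel
      _ = 1 := by rw [← e1]; abel
  · calc (1 - (2 * I) • R) * (1 + (2 * I) • R')
        = 1 + (2 * I) • (R' - R) - (2 * I) • ((2 * I) • (R * R')) := by
          simp only [sub_mul, mul_add, one_mul, mul_one, smul_mul_assoc, mul_smul_comm, smul_sub]
          abel
      _ = 1 := by rw [← e2]; abel

theorem norm_rsv_le (S : Std A H) {T : A} (hT : star T = T) : ‖rsv T‖ ≤ 1 := by
  have h : ‖(2 * I) • rsv T‖ ≤ 2 := by
    rw [show (2 * I) • rsv T = 1 - cay T by simp [cay]]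
    linarith [norm_sub_le (1 : A) (cay T), norm_unit_le S (cay_unitary hT),
      norm_unit_le S (one_mem (unitary A))]
  rw [norm_smul] at h
  simp at h
  linarith

theorem cay_lip (S : Std A H) {T T' : A} (hT : star T = T) (hT' : star T' = T') :
    ‖S.ι (cay T - cay T')‖ ≤ 2 * ‖S.ι (T - T')‖ := by
  have e : rsv T' - rsv T = rsv T * ((T - T') * rsv T') := by
    calc rsv T' - rsv T = rsv T * (T + I • 1) * rsv T' - rsv T * ((T' + I • 1) * rsv T') := by
          rw [rsv_left hT, rsv_right hT', one_mul, mul_one]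
      _ = rsv T * ((T + I • 1) * rsv T' - (T' + I • 1) * rsv T') := by rw [mul_assoc, mul_sub]
      _ = _ := by rw [← sub_mul, add_sub_add_right_eq_sub]
  have hc : cay T - cay T' = (2 * I) • (rsv T' - rsv T) := by
    simp only [cay, smul_sub]; abel
  rw [hc, e, map_smul, norm_smul]
  have h1 := S.left_le (rsv T) ((T - T') * rsv T')
  have h2 := S.right_le (rsv T') (T - T')
  have a1 := norm_rsv_le S hT
  have a2 := norm_rsv_le S hT'
  have : ‖S.ι (rsv T * ((T - T') * rsv T'))‖ ≤ ‖S.ι (T - T')‖ := by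
    refine h1.trans ((mul_le_of_le_one_left (norm_nonneg _) a1).trans (h2.trans ?_))
    exact mul_le_of_le_one_left (norm_nonneg _) a2
  simpa using mul_le_mul_of_nonneg_left this (norm_nonneg (2 * I))

/-- A closed star subalgebra containing a self-adjoint element contains its resolvent. -/
theorem rsv_mem {B : StarSubalgebra ℂ A} (hB : IsClosed (B : Set A)) {T : A} (hT : star T = T)
    (h : T ∈ B) : rsv T ∈ B := by
  have : IsClosed (B : Set A) := hB
  have hm : T + I • 1 ∈ B := add_mem h (B.smul_mem (one_mem B) _)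
  have hu : IsUnit (⟨_, hm⟩ : B) :=
    (StarSubalgebra.coe_isUnit (S := B)).1 (isUnit_add_I hT (by simp))
  obtain ⟨u, hu⟩ := hu
  have hinv : rsv T = ((↑u⁻¹ : B) : A) := by
    refine left_inv_eq_right_inv (rsv_left hT) ?_
    have := congrArg Subtype.val u.mul_inv
    simpa [hu] using this
  rw [hinv]
  exact SetLike.coe_mem _

/-- A closed star subalgebra containing the Cayley transform contains the element. -/
theorem mem_of_cay_mem {B : StarSubalgebra ℂ A} (hB : IsClosed (B : Set A)) {T : A}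
    (hT : star T = T) (h : cay T ∈ B) : T ∈ B := by
  have : IsClosed (B : Set A) := hB
  have hr : rsv T ∈ B := by
    have := B.smul_mem (sub_mem (one_mem B) h) ((2 * I)⁻¹)
    rwa [show (1 : A) - cay T = (2 * I) • rsv T by simp [cay],
      inv_smul_smul₀ (by simp : (2 * I) ≠ 0)] at this
  have hu : IsUnit (⟨_, hr⟩ : B) := (StarSubalgebra.coe_isUnit (S := B)).1
    ⟨⟨_, _, rsv_left hT, rsv_right hT⟩, rfl⟩
  obtain ⟨u, hu⟩ := hu
  have hinv : T + I • 1 = ((↑u⁻¹ : B) : A) := by
    refine left_inv_eq_right_inv (rsv_right hT) ?_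
    have := congrArg Subtype.val u.mul_inv
    simpa [hu] using this
  have := sub_mem (SetLike.coe_mem (↑u⁻¹ : B)) (B.smul_mem (one_mem B) I)
  rwa [← hinv, add_sub_cancel_right] at this

end VP086.Lim
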