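import Vale.Agent.P086.Norms

/-!
P086: one round. Every piece of `q` is replaced by the compression of a word in the three unitaries,
at the price of an arbitrarily small move of `u`.
-/

open scoped InnerProductSpace

namespace VP086.Lim

variable {A : Type} [CStarAlgebra A] {H : Type} [NormedAddCommGroup H] [InnerProductSpace ℂ H]
variable {S : System A H}

/-- The algebra of the frame and a state. -/
noncomputable def alg (S : System A H) (s : A × A) : StarSubalgebra ℂ A :=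
  (StarAlgebra.adjoin ℂ ((S.D : Set A) ∪ {(S.u2 : A), s.1, s.2})).topologicalClosure

theorem alg_le_of_mem {s s' : A × A} (h1 : s.1 ∈ alg S s') (h2 : s.2 ∈ alg S s') :
    alg S s ≤ alg S s' := by
  refine StarSubalgebra.topologicalClosure_minimal (StarAlgebra.adjoin_le ?_)
    (StarSubalgebra.isClosed_topologicalClosure _)
  rintro x (hx | hx)
  · exact StarSubalgebra.le_topologicalClosure _ (StarAlgebra.subset_adjoin ℂ _ (Or.inl hx))
  · rcases hx with rfl | rfl | rfl
    · exact StarSubalgebra.le_topologicalClosure _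
        (StarAlgebra.subset_adjoin ℂ _ (Or.inr (Or.inl rfl)))
    · exact h1
    · exact h2

theorem fst_mem_alg (S : System A H) (s : A × A) : s.1 ∈ alg S s :=
  StarSubalgebra.le_topologicalClosure _
    (StarAlgebra.subset_adjoin ℂ _ (Or.inr (Or.inr (Or.inl rfl))))

theorem snd_mem_alg (S : System A H) (s : A × A) : s.2 ∈ alg S s :=
  StarSubalgebra.le_topologicalClosure _
    (StarAlgebra.subset_adjoin ℂ _ (Or.inr (Or.inr (Or.inr rfl))))

/-! ### Compressions -/

section Pieces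

variable {K : ℕ} (P : Arcs S K)

theorem cmp_pairs (a b : Fin K) (x : A) : cmp (P.pairs a b) x =
    (P.p a).1 * x * (P.p b).1 + if a = b then 0 else (P.p b).1 * x * (P.p a).1 := by
  by_cases h : a = b <;> simp [Arcs.pairs, cmp, h]

/-- Compression as a continuous linear map. -/
noncomputable def cmpL (a b : Fin K) : A →L[ℂ] A :=
  ((P.pairs a b).map fun p => ContinuousLinearMap.mulLeftRight ℂ A p.1.1 p.2.1).sum

theorem cmpL_apply (a b : Fin K) (x : A) : cmpL P a b x = cmp (P.pairs a b) x := by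
  by_cases h : a = b <;>
    simp [cmpL, cmp, Arcs.pairs, h, ContinuousLinearMap.mulLeftRight_apply]

theorem unit_mul (a b c d : Fin K) (x : A) :
    (P.p a).1 * ((P.p c).1 * x * (P.p d).1) * (P.p b).1 =
      if a = c ∧ d = b then (P.p a).1 * x * (P.p b).1 else 0 := by
  rw [show (P.p a).1 * ((P.p c).1 * x * (P.p d).1) * (P.p b).1 =
    ((P.p a).1 * (P.p c).1) * x * ((P.p d).1 * (P.p b).1) by simp only [mul_assoc],
    P.mul_p, P.mul_p]
  by_cases h1 : a = c <;> by_cases h2 : d = b <;> simp [h1, h2]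

theorem cmp_cmp (a b c d : Fin K) (hab : a ≤ b) (hcd : c ≤ d) (x : A) :
    cmp (P.pairs a b) (cmp (P.pairs c d) x) =
      if a = c ∧ b = d then cmp (P.pairs a b) x else 0 := by
  simp only [cmp_pairs]
  by_cases h1 : a = b <;> by_cases h2 : c = d
  · subst h1 h2
    by_cases h : a = c <;> simp [unit_mul, h, Ne.symm]
  · subst h1
    simp only [h2, if_false, mul_add, add_mul, unit_mul, if_true, add_zero]
    have : ¬(a = c ∧ d = a) := fun h => h2 (h.1.symm.trans h.2.symm)
    have : ¬(a = d ∧ c = a) := fun h => h2 (h.2.trans h.1)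
    have : ¬(a = c ∧ a = d) := fun h => h2 (h.1.symm.trans h.2)
    simp [*]
  · subst h2
    simp only [h1, if_false, unit_mul, if_true, add_zero]
    have : ¬(a = c ∧ c = b) := fun h => h1 (h.1.trans h.2)
    have : ¬(b = c ∧ c = a) := fun h => h1 (h.2.symm.trans h.1.symm)
    have : ¬(a = c ∧ b = c) := fun h => h1 (h.1.trans h.2.symm)
    simp [*]
  · simp only [h1, h2, if_false, mul_add, add_mul, unit_mul]
    by_cases h : a = c ∧ b = d
    · obtain ⟨rfl, rfl⟩ := h
      simp [h1, Ne.symm h1]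
    · have : ¬(a = c ∧ d = b) := fun e => h ⟨e.1, e.2.symm⟩
      have : ¬(b = d ∧ c = a) := fun e => h ⟨e.2.symm, e.1⟩
      have : ¬(a = d ∧ c = b) := by rintro ⟨rfl, rfl⟩; exact h1 (le_antisymm hab hcd)
      have : ¬(b = c ∧ d = a) := by rintro ⟨rfl, rfl⟩; exact h1 (le_antisymm hab hcd)
      simp [*]

theorem cmp_idem (a b : Fin K) (hab : a ≤ b) (x : A) :
    cmp (P.pairs a b) (cmp (P.pairs a b) x) = cmp (P.pairs a b) x := by
  simp [cmp_cmp P a b a b hab hab]

theorem cmp_sub (a b : Fin K) (x y : A) :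
    cmp (P.pairs a b) (x - y) = cmp (P.pairs a b) x - cmp (P.pairs a b) y := by
  simp only [← cmpL_apply, map_sub]

theorem star_cmp (a b : Fin K) (x : A) :
    star (cmp (P.pairs a b) x) = cmp (P.pairs a b) (star x) := by
  by_cases h : a = b
  · simp [cmp_pairs, h, P.star_p, mul_assoc]
  · simp [cmp_pairs, h, P.star_p, mul_assoc, add_comm]

theorem unit_adjoint (a b : Fin K) (x y : A) :
    ⟪S.ι ((P.p a).1 * x * (P.p b).1), S.ι y⟫_ℂ = ⟪S.ι x, S.ι ((P.p a).1 * y * (P.p b).1)⟫_ℂ := by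
  rw [inner_eq S.toStd, inner_eq S.toStd]
  simp only [star_mul, P.star_p, Std.τ, mul_assoc]
  rw [S.tau_comm (P.p b).1]
  simp only [mul_assoc]

theorem cmp_adjoint (a b : Fin K) (x y : A) :
    ⟪S.ι (cmp (P.pairs a b) x), S.ι y⟫_ℂ = ⟪S.ι x, S.ι (cmp (P.pairs a b) y)⟫_ℂ := by
  by_cases h : a = b <;>
    simp [cmp_pairs, h, unit_adjoint]

theorem cmp_contr (a b : Fin K) (hab : a ≤ b) (x : A) :
    ‖S.ι (cmp (P.pairs a b) x)‖ ≤ ‖S.ι x‖ := by
  have h : ‖S.ι (cmp (P.pairs a b) x)‖ ^ 2 ≤ ‖S.ι x‖ * ‖S.ι (cmp (P.pairs a b) x)‖ := by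
    rw [@norm_sq_eq_re_inner ℂ, cmp_adjoint, cmp_idem P a b hab]
    exact re_inner_le_norm _ _
  rcases (norm_nonneg (S.ι (cmp (P.pairs a b) x))).eq_or_lt with h0 | h0
  · rw [← h0]; exact norm_nonneg _
  · exact le_of_mul_le_mul_right (by rwa [sq] at h) h0

theorem sum_cmp (x : A) :
    ∑ p : Fin K × Fin K, (if p.1 ≤ p.2 then cmp (P.pairs p.1 p.2) x else 0) = x := by
  have e : ∀ p : Fin K × Fin K, (if p.1 ≤ p.2 then cmp (P.pairs p.1 p.2) x else 0) =
      (if p.1 ≤ p.2 then (P.p p.1).1 * x * (P.p p.2).1 else 0) +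
      (if p.1 < p.2 then (P.p p.2).1 * x * (P.p p.1).1 else 0) := by
    intro p
    rcases lt_trichotomy p.1 p.2 with h | h | h
    · simp [cmp_pairs, h.le, h, h.ne]
    · simp [cmp_pairs, h]
    · simp [h.not_ge, h.le.not_gt]
  rw [Finset.sum_congr rfl fun p _ => e p, Finset.sum_add_distrib,
    ← Equiv.sum_comp (Equiv.prodComm _ _)
      (fun p : Fin K × Fin K => if p.1 < p.2 then (P.p p.2).1 * x * (P.p p.1).1 else 0),
    ← Finset.sum_add_distrib]
  have e2 : ∀ p : Fin K × Fin K, ((if p.1 ≤ p.2 then (P.p p.1).1 * x * (P.p p.2).1 else 0) +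
      if p.2 < p.1 then (P.p p.1).1 * x * (P.p p.2).1 else 0) =
      (P.p p.1).1 * x * (P.p p.2).1 := by
    intro p
    rcases le_or_gt p.1 p.2 with h | h
    · simp [h, h.not_gt]
    · simp [h, h.not_ge]
  simp only [Equiv.prodComm_apply, Prod.fst_swap, Prod.snd_swap]
  refine (Finset.sum_congr rfl fun p _ => e2 p).trans ?_
  rw [Fintype.sum_prod_type]
  simp only [← Finset.mul_sum, P.sum_p, mul_one, ← Finset.sum_mul, one_mul]

theorem norm_sum_orth (s : Finset (Fin K × Fin K)) (hs : ∀ p ∈ s, p.1 ≤ p.2)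
    (z : Fin K × Fin K → A) :
    ‖S.ι (∑ p ∈ s, cmp (P.pairs p.1 p.2) (z p))‖ ^ 2 =
      ∑ p ∈ s, ‖S.ι (cmp (P.pairs p.1 p.2) (z p))‖ ^ 2 := by
  simp only [@norm_sq_eq_re_inner ℂ, map_sum, sum_inner, inner_sum]
  refine Finset.sum_congr rfl fun p hp => ?_
  rw [Finset.sum_eq_single p]
  · intro r hr hrp
    rw [cmp_adjoint, cmp_cmp P _ _ _ _ (hs _ ‹_›) (hs _ ‹_›), if_neg, map_zero, inner_zero_right,
      map_zero]
    rintro ⟨h1, h2⟩
    exact hrp (Prod.ext h1 h2)
  · exact fun h => absurd hp h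

end Pieces

/-! ### The word -/

theorem noQ_aWrd (S : System A H) (L : ℕ) : NoQ (aWrd S L) := by
  intro l hl
  have key : ∀ (i k : ℕ), l ∈ FreeMonoid.toList
      (blk (FreeMonoid.of (Atom.u : Atom S)) (FreeMonoid.of Atom.v) i k) → l ≠ Atom.q := by
    intro i k
    induction k generalizing i with
    | zero => simp [blk]
    | succ k ih =>
      intro h
      simp only [blk, FreeMonoid.toList_mul, List.mem_append, FreeMonoid.toList_of,
        List.mem_singleton] at h
      rcases h with (h | rfl) | h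
      · have hp : ∀ n, l ∈ FreeMonoid.toList (FreeMonoid.of (Atom.v : Atom S) ^ n) →
            l ≠ Atom.q := by
          intro n
          induction n with
          | zero => simp
          | succ n ihn =>
            intro h
            rw [pow_succ, FreeMonoid.toList_mul, List.mem_append, FreeMonoid.toList_of,
              List.mem_singleton] at h
            rcases h with h | rfl
            · exact ihn h
            · simp
        exact hp _ h
      · simp
      · exact ih _ h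
  exact key 0 L hl

theorem noQ_adjW {W : List (Atom S)} (h : NoQ W) : NoQ (adjW W) := by
  intro l hl
  simp only [adjW, List.mem_reverse, List.mem_map] at hl
  obtain ⟨m, hm, rfl⟩ := hl
  have := h m hm
  cases m <;> simp_all [Atom.adj]

/-- The substitute for `q`, as a function of the unitary. -/
noncomputable def gFun (S : System A H) (L : ℕ) (w : A) : A :=
  lam • ev (S := S) (w, 0) (aWrd S L) + lam • star (ev (S := S) (w, 0) (aWrd S L))

theorem ev_noQ_indep (w x y : A) {W : List (Atom S)} (hW : NoQ W) :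
    ev (w, x) W = ev (w, y) W := by
  induction W with
  | nil => rfl
  | cons l W ih =>
    rw [ev_cons, ev_cons, ih fun m hm => hW m (List.mem_cons_of_mem _ hm)]
    cases l <;> first | rfl | exact absurd rfl (hW _ (by simp))

theorem star_gFun (L : ℕ) (w : A) : star (gFun S L w) = gFun S L w := by
  simp [gFun, star_smul, lam, add_comm]

theorem tot_gC {K : ℕ} (P : Arcs S K) (a b : Fin K) (L : ℕ) (s : A × A) (hq : star s.2 = s.2) :
    tot s (gC (P.pairs a b) L) = cmp (P.pairs a b) (gFun S L s.1) := by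
  have h0 : ev (S := S) (s.1, 0) (aWrd S L) = ev s (aWrd S L) :=
    ev_noQ_indep _ _ _ (noQ_aWrd S L)
  have key : ∀ pr : List (Const S × Const S), tot s (gC pr L) = cmp pr (gFun S L s.1) := by
    intro pr
    induction pr with
    | nil => simp [gC, cmp]
    | cons p pr ih =>
      have e : tot s (gC (p :: pr) L) = lam • ev s ([Atom.d p.1] ++ aWrd S L ++ [Atom.d p.2]) +
          (lam • ev s ([Atom.d p.1] ++ adjW (aWrd S L) ++ [Atom.d p.2]) + tot s (gC pr L)) := by
        simp [gC, List.flatMap_cons]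
      have e' : cmp (p :: pr) (gFun S L s.1) =
          p.1.1 * gFun S L s.1 * p.2.1 + cmp pr (gFun S L s.1) := by simp [cmp]
      rw [e, e', ih, gFun, h0]
      simp [ev_append, ev_adjW s hq, Atom.val, mul_assoc, mul_add, add_mul, add_assoc]
  exact key _

theorem gFun_lip (L : ℕ) : ∃ C : ℝ, 0 ≤ C ∧ ∀ w ∈ unitary A, ∀ w' ∈ unitary A,
    ‖S.ι (gFun S L w - gFun S L w')‖ ≤ C * ‖S.ι (w - w')‖ := by
  refine ⟨2 * (‖lam‖ * (aWrd S L).length), by positivity, fun w hw w' hw' => ?_⟩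
  have h1 := mul_le_mul_of_nonneg_left
    (ev_lip (S := S) (s := (w, 0)) (s' := (w', 0)) hw hw' (noQ_aWrd S L)) (norm_nonneg lam)
  have e : gFun S L w - gFun S L w' =
      lam • (ev (S := S) (w, 0) (aWrd S L) - ev (S := S) (w', 0) (aWrd S L)) +
      lam • star (ev (S := S) (w, 0) (aWrd S L) - ev (S := S) (w', 0) (aWrd S L)) := by
    rw [gFun, gFun, star_sub, smul_sub, smul_sub]; abel
  rw [e, map_add, map_smul, map_smul]
  refine (norm_add_le _ _).trans ?_
  rw [norm_smul, norm_smul, nrm_star S.toStd]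
  linarith

theorem gFun_mem {B : StarSubalgebra ℂ A} (hD : (S.D : Set A) ⊆ B) (h2 : (S.u2 : A) ∈ B) {w : A}
    (hw : w ∈ B) (L : ℕ) : gFun S L w ∈ B :=
  add_mem (B.smul_mem (ev_mem hD h2 (s := (w, 0)) hw (noQ_aWrd S L)) _)
    (B.smul_mem (star_mem (ev_mem hD h2 (s := (w, 0)) hw (noQ_aWrd S L))) _)

/-! ### One piece, and all pieces -/

theorem tot_devC_cons (pr : List (Const S × Const S)) (L : ℕ) (s : A × A)
    (p : ℂ × List (Atom S)) (l : Comb S) :
    tot s (devC pr L (p :: l)) = p.1 • tot s (dev pr L p.2) + tot s (devC pr L l) := by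
  rw [devC, List.flatMap_cons, tot_append, tot_map_scale, ← devC]

theorem piece (hI : InvarianceSpec) (hS : StaticSpec) (hF : FlowSpec) {K : ℕ} (P : Arcs S K)
    (a b : Fin K) (hab : a ≤ b) (L : ℕ) (hL : 0 < L) (s : A × A) (hs : Law S s) :
    ∃ s', Law S s' ∧ ‖S.ι (s'.1 - s.1)‖ ≤ 8 / (K * Real.sqrt L) ∧
      s.1 ∈ alg S s' ∧ s.2 ∈ alg S s' ∧
      (∀ c d : Fin K, c ≤ d → ¬(c = a ∧ d = b) →
        cmp (P.pairs c d) s'.2 = cmp (P.pairs c d) s.2) ∧
      ‖S.ι (cmp (P.pairs a b) (s.2 - gFun S L s'.1))‖ ≤ 60 / (K : ℝ) ^ 2 := by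
  obtain ⟨hskew, hst⟩ := hS A H S K P a b L hL
  obtain ⟨x, hx0, hx, hrev⟩ := hF A H S K P a b L hL (hI A H S K P a b L hL) hskew s hs
  have hπ : (0 : ℝ) ≤ Real.pi / 2 := by positivity
  have hT : Real.pi / 2 ∈ Set.Icc (0 : ℝ) (Real.pi / 2) := ⟨hπ, le_rfl⟩
  have h0 : (0 : ℝ) ∈ Set.Icc (0 : ℝ) (Real.pi / 2) := ⟨le_rfl, hπ⟩
  have hπ2 : Real.pi / 2 ≤ 2 := by linarith [Real.pi_le_four]
  have hder : ∀ (l : Comb S) (t), t ∈ Set.Icc (0 : ℝ) (Real.pi / 2) →
      HasDerivWithinAt (fun r => tot (x r) l) (tot (x t) (devC (P.pairs a b) L l))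
        (Set.Icc 0 (Real.pi / 2)) t := by
    intro l t ht
    induction l with
    | nil => simpa [devC] using hasDerivWithinAt_const t _ (0 : A)
    | cons p l ih =>
      simp only [tot_cons, tot_devC_cons]
      exact (((hx t ht).2.2 p.2).const_smul p.1).add ih
  refine ⟨x (Real.pi / 2), (hx _ hT).1, ?_, (hrev _ hT).1, (hrev _ hT).2, ?_, ?_⟩
  · -- the move of `u`
    have hu : ∀ t ∈ Set.Icc (0 : ℝ) (Real.pi / 2), HasDerivWithinAt (fun r => S.ι (x r).1)
        (S.ι ((field (P.pairs a b) L (x t)).1)) (Set.Icc 0 (Real.pi / 2)) t := fun t ht =>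
      (((ιL S.toStd).comp (ContinuousLinearMap.fst ℂ A A)).restrictScalars ℝ).hasFDerivAt
        |>.comp_hasDerivWithinAt t (hx t ht).2.1
    have hb : ∀ t ∈ Set.Ico (0 : ℝ) (Real.pi / 2),
        ‖S.ι ((field (P.pairs a b) L (x t)).1)‖ ≤ 4 / (K * Real.sqrt L) := by
      intro t ht
      have hl := (hx t (Set.Ico_subset_Icc_self ht)).1
      refine le_trans ?_ (hst _ hl).1
      show ‖S.ι (tot (x t) _ * (x t).1)‖ ≤ _
      refine (S.right_le _ _).trans (mul_le_of_le_one_left (norm_nonneg _) ?_)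
      exact norm_unit_le S.toStd hl.unit
    have h := norm_image_sub_le_of_norm_deriv_le_segment' hu hb _ hT
    rw [sub_zero, hx0, ← map_sub] at h
    refine h.trans ((mul_le_mul_of_nonneg_left hπ2 (by positivity)).trans ?_)
    rw [div_mul_eq_mul_div]
    norm_num
  · -- the other pieces
    intro c d hcd hne
    have hq : ∀ t ∈ Set.Icc (0 : ℝ) (Real.pi / 2),
        HasDerivWithinAt (fun r => cmp (P.pairs c d) (x r).2) 0 (Set.Icc 0 (Real.pi / 2)) t := by
      intro t ht
      have hl := (hx t ht).1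
      have h := (((cmpL P c d).comp (ContinuousLinearMap.snd ℂ A A)).restrictScalars ℝ).hasFDerivAt
        |>.comp_hasDerivWithinAt t (hx t ht).2.1
      simp only [ContinuousLinearMap.coe_restrictScalars', ContinuousLinearMap.coe_comp,
        Function.comp_def, ContinuousLinearMap.coe_snd', cmpL_apply] at h
      have e : cmp (P.pairs c d) (field (P.pairs a b) L (x t)).2 = 0 := by
        show cmp (P.pairs c d) (-tot (x t) (gC (P.pairs a b) L)) = 0
        rw [tot_gC P a b L _ hl.sa, ← cmpL_apply, map_neg, cmpL_apply, cmp_cmp P c d a b hcd hab,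
          if_neg hne, neg_zero]
      rw [e] at h
      exact h
    have h := norm_image_sub_le_of_norm_deriv_le_segment' hq (C := 0) (by simp) _ hT
    rw [sub_zero, zero_mul, norm_le_zero_iff, sub_eq_zero, hx0] at h
    exact h
  · -- the rotation
    set yy := fun r => tot (x r) (yC (P.pairs a b))
    set gg := fun r => tot (x r) (gC (P.pairs a b) L)
    have hh : ∀ t ∈ Set.Icc (0 : ℝ) (Real.pi / 2),
        HasDerivWithinAt (fun r => S.ι (Real.cos r • yy r + Real.sin r • gg r))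
          (S.ι (Real.sin t • (tot (x t) (devC (P.pairs a b) L (gC (P.pairs a b) L)) - yy t)))
          (Set.Icc 0 (Real.pi / 2)) t := by
      intro t ht
      have h := ((Real.hasDerivAt_cos t).hasDerivWithinAt.smul (hder (yC (P.pairs a b)) t ht)).add
        ((Real.hasDerivAt_sin t).hasDerivWithinAt.smul (hder (gC (P.pairs a b) L) t ht))
      rw [(hst _ (hx t ht).1).2.1] at h
      have h' := ((ιL S.toStd).restrictScalars ℝ).hasFDerivAt.comp_hasDerivWithinAt t h
      refine h'.congr_deriv ?_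
      show S.ι _ = S.ι _
      congr 1
      simp only [yy, smul_sub, smul_neg, neg_smul]
      abel
    have hb : ∀ t ∈ Set.Ico (0 : ℝ) (Real.pi / 2),
        ‖S.ι (Real.sin t • (tot (x t) (devC (P.pairs a b) L (gC (P.pairs a b) L)) - yy t))‖ ≤
          30 / (K : ℝ) ^ 2 := by
      intro t ht
      have := (hst _ (hx t (Set.Ico_subset_Icc_self ht)).1).2.2
      rw [← Complex.coe_smul (Real.sin t), map_smul, norm_smul, Complex.norm_real]
      exact le_trans (mul_le_of_le_one_left (norm_nonneg _) (Real.abs_sin_le_one t)) this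
    have h := norm_image_sub_le_of_norm_deriv_le_segment' hh hb _ hT
    have e0 : yy 0 = cmp (P.pairs a b) s.2 := by
      by_cases hab' : a = b <;>
        simp [yy, hx0, yC, Arcs.pairs, cmp, hab', Atom.val, mul_assoc]
    have e1 : gg (Real.pi / 2) = cmp (P.pairs a b) (gFun S L (x (Real.pi / 2)).1) :=
      tot_gC P a b L _ (hx _ hT).1.sa
    simp only [Real.cos_pi_div_two, Real.sin_pi_div_two, Real.cos_zero, Real.sin_zero, zero_smul,
      one_smul, zero_add, add_zero, sub_zero, e0, e1] at h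
    rw [cmp_sub, map_sub, norm_sub_rev]
    refine h.trans ((mul_le_mul_of_nonneg_left hπ2 (by positivity)).trans (le_of_eq ?_))
    ring

theorem pieces (hI : InvarianceSpec) (hS : StaticSpec) (hF : FlowSpec) {K : ℕ} (P : Arcs S K)
    (hK : 0 < K) (l : List (Fin K × Fin K)) (hl : ∀ p ∈ l, p.1 ≤ p.2) (hnd : l.Nodup)
    (s : A × A) (hs : Law S s) (ε : ℝ) (hε : 0 < ε) :
    ∃ s', Law S s' ∧ ‖S.ι (s'.1 - s.1)‖ ≤ ε ∧ s.1 ∈ alg S s' ∧ s.2 ∈ alg S s' ∧
      (∀ c d : Fin K, c ≤ d → (c, d) ∉ l →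
        cmp (P.pairs c d) s'.2 = cmp (P.pairs c d) s.2) ∧
      ∀ p ∈ l, ∃ L, ‖S.ι (cmp (P.pairs p.1 p.2) (s.2 - gFun S L s'.1))‖ ≤ 61 / (K : ℝ) ^ 2 := by
  induction l generalizing s ε with
  | nil => exact ⟨s, hs, by simp [hε.le], fst_mem_alg S s, snd_mem_alg S s, fun _ _ _ _ => rfl,
      by simp⟩
  | cons p l ih =>
    obtain ⟨L, hL0, hL⟩ : ∃ L : ℕ, 0 < L ∧ 8 / (K * Real.sqrt L) ≤ ε / 2 := by
      obtain ⟨n, hn⟩ := exists_nat_gt ((16 / ε) ^ 2)
      have hn0 : (0 : ℝ) < n := lt_of_le_of_lt (sq_nonneg _) hn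
      refine ⟨n, by exact_mod_cast hn0, ?_⟩
      have hs0 : 16 / ε ≤ Real.sqrt n := Real.le_sqrt_of_sq_le hn.le
      have hs1 : 0 < Real.sqrt n := Real.sqrt_pos.2 hn0
      have hK1 : (1 : ℝ) ≤ K := by exact_mod_cast hK
      rw [div_le_iff₀ (by positivity)]
      have : 16 ≤ Real.sqrt n * ε := (div_le_iff₀ hε).1 hs0
      nlinarith [mul_le_mul_of_nonneg_left hK1 (mul_nonneg hs1.le hε.le)]
    obtain ⟨s1, h1L, h1d, h1u, h1q, h1c, h1g⟩ :=
      piece hI hS hF P p.1 p.2 (hl p (by simp)) L hL0 s hs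
    obtain ⟨C, hC0, hC⟩ := gFun_lip (S := S) L
    have hδ : 0 < min (ε / 2) (1 / ((K : ℝ) ^ 2 * (C + 1))) := lt_min (half_pos hε) (by positivity)
    rw [List.nodup_cons] at hnd
    obtain ⟨s2, h2L, h2d, h2u, h2q, h2c, h2g⟩ :=
      ih (fun r hr => hl r (List.mem_cons_of_mem _ hr)) hnd.2 s1 h1L _ hδ
    have hle := alg_le_of_mem h2u h2q
    refine ⟨s2, h2L, ?_, hle h1u, hle h1q, ?_, ?_⟩
    · rw [show s2.1 - s.1 = (s2.1 - s1.1) + (s1.1 - s.1) by abel, map_add]
      linarith [norm_add_le (S.ι (s2.1 - s1.1)) (S.ι (s1.1 - s.1)), min_le_left (ε / 2)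
        (1 / ((K : ℝ) ^ 2 * (C + 1)))]
    · intro c d hcd hmem
      rw [List.mem_cons, not_or] at hmem
      rw [h2c c d hcd hmem.2, h1c c d hcd fun h => hmem.1 (Prod.ext h.1 h.2)]
    · intro r hr
      rcases List.mem_cons.1 hr with rfl | hr
      · refine ⟨L, ?_⟩
        have e : s.2 - gFun S L s2.1 =
            (s.2 - gFun S L s1.1) + (gFun S L s1.1 - gFun S L s2.1) := by abel
        rw [e, ← cmpL_apply, map_add, cmpL_apply, cmpL_apply, map_add]
        refine (norm_add_le _ _).trans ?_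
        have h3 : ‖S.ι (gFun S L s1.1 - gFun S L s2.1)‖ ≤ 1 / (K : ℝ) ^ 2 := by
          refine (hC _ h1L.unit _ h2L.unit).trans ?_
          rw [map_sub, norm_sub_rev, ← map_sub]
          refine (mul_le_mul_of_nonneg_left (h2d.trans (min_le_right _ _)) hC0).trans ?_
          rw [mul_one_div, div_le_div_iff₀ (by positivity) (by positivity)]
          nlinarith [sq_nonneg (K : ℝ)]
        have := (cmp_contr P r.1 r.2 (hl r (by simp))
          (gFun S L s1.1 - gFun S L s2.1)).trans h3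
        linarith [show 61 / (K : ℝ) ^ 2 = 60 / (K : ℝ) ^ 2 + 1 / (K : ℝ) ^ 2 by ring]
      · obtain ⟨L', hL'⟩ := h2g r hr
        refine ⟨L', ?_⟩
        have hne : ¬(r.1 = p.1 ∧ r.2 = p.2) := fun h => hnd.1 (by rwa [← Prod.ext h.1 h.2])
        rw [cmp_sub, ← h1c r.1 r.2 (hl r (List.mem_cons_of_mem _ hr)) hne, ← cmp_sub]
        exact hL'

/-- One round: `q` becomes, up to `61/K`, a self-adjoint function of the new unitary, Lipschitz for
the two-norm, with values in the algebra of the frame and the unitary. -/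
theorem round (hI : InvarianceSpec) (hS : StaticSpec) (hF : FlowSpec) {K : ℕ} (P : Arcs S K)
    (hK : 0 < K) (s : A × A) (hs : Law S s) (ε : ℝ) (hε : 0 < ε) :
    ∃ (s' : A × A) (G : A → A) (C : ℝ), Law S s' ∧ ‖S.ι (s'.1 - s.1)‖ ≤ ε ∧
      s.1 ∈ alg S s' ∧ s.2 ∈ alg S s' ∧ 0 ≤ C ∧ (∀ w, star (G w) = G w) ∧
      (∀ w ∈ unitary A, ∀ w' ∈ unitary A, ‖S.ι (G w - G w')‖ ≤ C * ‖S.ι (w - w')‖) ∧
      (∀ B : StarSubalgebra ℂ A, (S.D : Set A) ⊆ B → (S.u2 : A) ∈ B → ∀ w ∈ B, G w ∈ B) ∧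
      ‖S.ι (s.2 - G s'.1)‖ ≤ 61 / K := by
  set T : Finset (Fin K × Fin K) := Finset.univ.filter fun p => p.1 ≤ p.2
  have hT : ∀ p ∈ T, p.1 ≤ p.2 := fun p hp => (Finset.mem_filter.1 hp).2
  obtain ⟨s', hL, hd, hu, hq, -, hg⟩ := pieces hI hS hF P hK T.toList
    (fun p hp => hT p (Finset.mem_toList.1 hp)) T.nodup_toList s hs ε hε
  choose! L hLg using fun p (hp : p ∈ T) => hg p (Finset.mem_toList.2 hp)
  choose C hC0 hC using fun p : Fin K × Fin K => gFun_lip (S := S) (L p)
  refine ⟨s', fun w => ∑ p ∈ T, cmp (P.pairs p.1 p.2) (gFun S (L p) w), ∑ p ∈ T, C p, hL, hd, hu,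
    hq, Finset.sum_nonneg fun p _ => hC0 p, ?_, ?_, ?_, ?_⟩
  · intro w; simp [star_sum, star_cmp, star_gFun]
  · intro w hw w' hw'
    rw [← Finset.sum_sub_distrib, map_sum, Finset.sum_mul]
    refine (norm_sum_le _ _).trans (Finset.sum_le_sum fun p hp => ?_)
    rw [← cmp_sub]
    exact (cmp_contr P _ _ (hT p hp) _).trans (hC p w hw w' hw')
  · intro B hD h2 w hw
    refine sum_mem fun p _ => ?_
    have := gFun_mem hD h2 hw (L p)
    rw [cmp_pairs]
    split_ifs
    · simpa using mul_mem (mul_mem (hD (P.p p.1).2.1) this) (hD (P.p p.2).2.1)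
    · exact add_mem (mul_mem (mul_mem (hD (P.p p.1).2.1) this) (hD (P.p p.2).2.1))
        (mul_mem (mul_mem (hD (P.p p.2).2.1) this) (hD (P.p p.1).2.1))
  · have e : s.2 - ∑ p ∈ T, cmp (P.pairs p.1 p.2) (gFun S (L p) s'.1) =
        ∑ p ∈ T, cmp (P.pairs p.1 p.2) (s.2 - gFun S (L p) s'.1) := by
      have hsum : ∑ p ∈ T, cmp (P.pairs p.1 p.2) s.2 = s.2 := by
        rw [Finset.sum_filter]; exact sum_cmp P s.2
      simp only [cmp_sub, Finset.sum_sub_distrib, hsum]
    rw [e]
    have hsq : ‖S.ι (∑ p ∈ T, cmp (P.pairs p.1 p.2) (s.2 - gFun S (L p) s'.1))‖ ^ 2 ≤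
        (61 / (K : ℝ)) ^ 2 := by
      rw [norm_sum_orth P T hT]
      refine (Finset.sum_le_sum fun p hp => pow_le_pow_left₀ (norm_nonneg _) (hLg p hp) 2).trans ?_
      rw [Finset.sum_const, nsmul_eq_mul]
      have hc : (T.card : ℝ) ≤ (K : ℝ) * K := by
        have := Finset.card_le_univ T
        simp only [Fintype.card_prod, Fintype.card_fin] at this
        exact_mod_cast this
      refine (mul_le_mul_of_nonneg_right hc (by positivity)).trans (le_of_eq ?_)
      field_simp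
    exact (pow_le_pow_iff_left₀ (norm_nonneg _) (by positivity) two_ne_zero).1 hsq

end VP086.Lim
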