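import Mathlib

/-!
P086: the abstract data of the construction. A C⋆-algebra in standard form with a trace, three
unitaries `u0, u1, u2`, the algebra `D` of bounded functions of `u0`, and a semicircular element
`q`, with the freeness properties of the generators of the free group on four letters.
-/

open scoped InnerProductSpace

namespace VP086

/-- A C⋆-algebra with a trace vector: `ι x = x Ω`. -/
structure Std (A : Type) [CStarAlgebra A] (H : Type) [NormedAddCommGroup H]
    [InnerProductSpace ℂ H] where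
  ι : A →ₗ[ℂ] H
  norm_one : ‖ι 1‖ = 1
  inner_ι : ∀ x y, ⟪ι x, ι y⟫_ℂ = ⟪ι 1, ι (star x * y)⟫_ℂ
  left_le : ∀ a x, ‖ι (a * x)‖ ≤ ‖a‖ * ‖ι x‖
  right_le : ∀ a x, ‖ι (x * a)‖ ≤ ‖a‖ * ‖ι x‖
  tau_comm : ∀ x y, ⟪ι 1, ι (x * y)⟫_ℂ = ⟪ι 1, ι (y * x)⟫_ℂ

namespace Std

variable {A : Type} [CStarAlgebra A] {H : Type} [NormedAddCommGroup H] [InnerProductSpace ℂ H]

/-- The trace. -/
noncomputable def τ (S : Std A H) (x : A) : ℂ := ⟪S.ι 1, S.ι x⟫_ℂ

end Std

variable {A : Type} [CStarAlgebra A] {H : Type} [NormedAddCommGroup H] [InnerProductSpace ℂ H]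

/-- Alternating products of trace-zero elements of `A₁` and `A₂` have trace zero. -/
def IsFree (S : Std A H) (A₁ A₂ : Set A) : Prop :=
  ∀ l : List (Bool × A), l ≠ [] →
    (∀ p ∈ l, S.τ p.2 = 0 ∧ p.2 ∈ cond p.1 A₁ A₂) →
    l.IsChain (fun p p' => p.1 ≠ p'.1) →
    S.τ (l.map Prod.snd).prod = 0

/-- The homomorphism from the free group given by a tuple of unitaries. -/
noncomputable def wordHom {n : ℕ} (u : Fin n → unitary A) : FreeGroup (Fin n) →* unitary A :=
  FreeGroup.lift u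

/-- The data of the construction. -/
structure System (A : Type) [CStarAlgebra A] (H : Type) [NormedAddCommGroup H]
    [InnerProductSpace ℂ H] extends Std A H where
  u0 : unitary A
  u1 : unitary A
  u2 : unitary A
  D : StarSubalgebra ℂ A
  q : A
  q_star : star q = q
  faithful : ∀ x, toStd.ι x = 0 → x = 0
  u0_mem : (u0 : A) ∈ D
  /-- The group algebra of the carriers and the algebra of the frame with `q` are free. -/
  free_E : IsFree toStd
    (Algebra.adjoin ℂ (Set.range fun h => (wordHom ![u1, u2] h : A)) : Set A)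
    (Algebra.adjoin ℂ ((D : Set A) ∪ {q}) : Set A)
  tau_E : ∀ h, toStd.τ (wordHom ![u1, u2] h : A) = if h = 1 then 1 else 0
  /-- `q` is free from the algebra of the three unitaries. -/
  free_q : IsFree toStd (Algebra.adjoin ℂ ({q} : Set A) : Set A)
    (Algebra.adjoin ℂ ((D : Set A) ∪ Set.range fun h => (wordHom ![u1, u2] h : A)) : Set A)
  tau_q : toStd.τ q = 0
  /-- `q` is semicircular. -/
  semicircle : ∀ m : ℕ, toStd.τ (q ^ (m + 1)) =
    ∑ i ∈ Finset.range m, toStd.τ (q ^ i) * toStd.τ (q ^ (m - 1 - i))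
  arcs : ∀ K : ℕ, 0 < K → ∃ p : Fin K → A, (∀ i, p i ∈ D) ∧ (∀ i, star (p i) = p i) ∧
    (∀ i j, p i * p j = if i = j then p i else 0) ∧ ∑ i, p i = 1 ∧
    ∀ i, toStd.τ (p i) = 1 / K
  /-- Bounded Cauchy sequences for the two-norm converge. -/
  complete : ∀ x : ℕ → A, (∀ m, ‖x m‖ ≤ 1) → CauchySeq (fun m => toStd.ι (x m)) →
    ∃ a : A, ‖a‖ ≤ 1 ∧ Filter.Tendsto (fun m => toStd.ι (x m)) Filter.atTop (nhds (toStd.ι a))

/-- What the abstract part delivers: a unitary `u` such that `u0, u, u2` have the law of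
`u0, u1, u2` and their algebra is dense for the two-norm in that of `u0, u1, u2, q`. -/
def LimitSpec : Prop :=
  ∀ (A : Type) [CStarAlgebra A] (H : Type) [NormedAddCommGroup H] [InnerProductSpace ℂ H]
    (S : System A H), ∃ u : unitary A,
      (∀ h, S.τ (wordHom ![S.u0, u, S.u2] h : A) = S.τ (wordHom ![S.u0, S.u1, S.u2] h : A)) ∧
      ∀ K : Submodule ℂ H, IsClosed (K : Set H) → S.ι 1 ∈ K →
        (∀ a ∈ (S.D : Set A) ∪ {(u : A), star (u : A), (S.u2 : A), star (S.u2 : A)},
          ∀ x, S.ι x ∈ K → S.ι (a * x) ∈ K) →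
        ∀ x ∈ (StarAlgebra.adjoin ℂ ((S.D : Set A) ∪ {(S.u1 : A), (S.u2 : A), S.q})).topologicalClosure,
          S.ι x ∈ K

end VP086
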